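import Vale.Agent.P217.CharZero.Ident

/-!
P217, h = 0: at every point the velocities of the action span the tangent space.
-/

namespace Vale.Agent.P217.CharZero

noncomputable section

open Filter Topology

variable {p n : ℕ} [Fact p.Prime]

section Matrices

/-- Entrywise bound. -/
def MB (X : Matrix (Fin n) (Fin n) ℂ_[p]) (c : ℝ) : Prop := ∀ i j, ‖X i j‖ ≤ c

variable {X Y : Matrix (Fin n) (Fin n) ℂ_[p]} {c c' : ℝ}

lemma MB.mono (h : MB X c) (hcc : c ≤ c') : MB X c' := fun i j => (h i j).trans hcc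

lemma MB.mul (hc : 0 ≤ c) (hc' : 0 ≤ c') (hX : MB X c) (hY : MB Y c') : MB (X * Y) (c * c') :=
  fun i j => by
    rw [Matrix.mul_apply]
    refine IsUltrametricDist.norm_sum_le_of_forall_le_of_nonneg (mul_nonneg hc hc') fun r _ => ?_
    rw [norm_mul]
    exact mul_le_mul (hX i r) (hY r j) (norm_nonneg _) hc

lemma mb_one : MB (1 : Matrix (Fin n) (Fin n) ℂ_[p]) 1 := fun i j => by
  rw [Matrix.one_apply]
  split_ifs <;> simp

lemma MB.pow (hc : 0 ≤ c) (hX : MB X c) : ∀ l, MB (X ^ l) (c ^ l)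
  | 0 => by rw [pow_zero, pow_zero]; exact mb_one
  | l + 1 => by rw [pow_succ, pow_succ]; exact (hX.pow hc l).mul (pow_nonneg hc l) hc hX

lemma MB.smul {a : ℂ_[p]} {b : ℝ} (ha : ‖a‖ ≤ b) (hX : MB X c) : MB (a • X) (b * c) :=
  fun i j => by
    rw [Matrix.smul_apply, smul_eq_mul, norm_mul]
    exact mul_le_mul ha (hX i j) (norm_nonneg _) ((norm_nonneg _).trans ha)

lemma MB.add (hX : MB X c) (hY : MB Y c) : MB (X + Y) c := fun i j =>
  (IsUltrametricDist.norm_add_le_max _ _).trans (max_le (hX i j) (hY i j))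

lemma mb_sum (hc : 0 ≤ c) {α : Type*} (s : Finset α) {F : α → Matrix (Fin n) (Fin n) ℂ_[p]}
    (h : ∀ i ∈ s, MB (F i) c) : MB (∑ i ∈ s, F i) c :=
  Finset.sum_induction _ (MB · c) (fun _ _ ha hb => ha.add hb)
    (fun i j => by simpa using hc) h

lemma one_add_pow_eq (X : Matrix (Fin n) (Fin n) ℂ_[p]) (m : ℕ) :
    (1 + X) ^ m = ∑ l ∈ Finset.range (m + 1), (m.choose l : ℂ_[p]) • X ^ l := by
  rw [add_comm 1 X, (Commute.one_right X).add_pow]
  refine Finset.sum_congr rfl fun l _ => ?_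
  rw [one_pow, mul_one, ← map_natCast (algebraMap ℂ_[p] (Matrix (Fin n) (Fin n) ℂ_[p])),
    ← Algebra.commutes, ← Algebra.smul_def]

lemma mb_pow_linear (hc : 0 ≤ c) (hc1 : c ≤ 1) (hX : MB X c) (m : ℕ) :
    MB ((1 + X) ^ m - 1 - (m : ℂ_[p]) • X) (c ^ 2) := by
  match m with
  | 0 => intro i j; simp [sq_nonneg]
  | m + 1 =>
    have e : (1 + X) ^ (m + 1) - 1 - ((m + 1 : ℕ) : ℂ_[p]) • X =
        ∑ l ∈ Finset.range m, ((m + 1).choose (l + 2) : ℂ_[p]) • X ^ (l + 2) := by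
      rw [one_add_pow_eq, Finset.sum_range_succ', Finset.sum_range_succ']
      simp
    rw [e]
    refine mb_sum (sq_nonneg c) _ fun l _ => ?_
    refine ((hX.pow hc (l + 2)).smul (norm_natCast_le ((m + 1).choose (l + 2)))).mono ?_
    rw [one_mul]
    exact pow_le_pow_of_le_one hc hc1 (by omega)

lemma mb_pow_p (hc : 0 ≤ c) (hcp : c ≤ (p : ℝ)⁻¹) (hX : MB X c) :
    MB ((1 + X) ^ p - 1) ((p : ℝ)⁻¹ * c) := by
  have hc1 : c ≤ 1 := hcp.trans inv_p_lt_one.le
  have h1 := mb_pow_linear hc hc1 hX p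
  have h2 : MB ((p : ℂ_[p]) • X) ((p : ℝ)⁻¹ * c) := hX.smul norm_natCast_p.le
  have h3 : MB ((1 + X) ^ p - 1 - (p : ℂ_[p]) • X) ((p : ℝ)⁻¹ * c) :=
    h1.mono (by rw [sq]; exact mul_le_mul_of_nonneg_right hcp hc)
  simpa using h3.add h2

/-- Powers B p^J of a matrix near one are one plus p^J times a limit near B X. -/
theorem exists_matrix_velocity (hc : 0 ≤ c) (hcp : c ≤ (p : ℝ)⁻¹) (hX : MB X c) (B : ℕ) :
    ∃ Z : Matrix (Fin n) (Fin n) ℂ_[p], MB (Z - (B : ℂ_[p]) • X) ((p : ℝ) * c ^ 2) ∧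
      Tendsto (fun J : ℕ => ((p : ℂ_[p]) ^ J)⁻¹ • ((1 + X) ^ (B * p ^ J) - 1)) atTop (𝓝 Z) := by
  have hc1 : c ≤ 1 := hcp.trans inv_p_lt_one.le
  set Y : ℕ → Matrix (Fin n) (Fin n) ℂ_[p] := fun J => (1 + X) ^ (B * p ^ J) - 1 with hY
  have hsucc : ∀ J, Y (J + 1) = (1 + Y J) ^ p - 1 := fun J => by
    simp only [hY, add_sub_cancel, ← pow_mul, pow_succ, mul_assoc]
  have hYb : ∀ J, MB (Y J) (c * (p : ℝ)⁻¹ ^ J) := by
    intro J
    induction J with
    | zero =>
      have h := (mb_pow_linear hc hc1 hX B).mono (c' := c)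
        (by rw [sq]; exact mul_le_of_le_one_left hc hc1)
      have h2 : MB ((B : ℂ_[p]) • X) c := by simpa using hX.smul (norm_natCast_le B)
      simpa [hY] using h.add h2
    | succ J ih =>
      rw [hsucc, pow_succ, ← mul_assoc, mul_comm _ (p : ℝ)⁻¹]
      exact mb_pow_p (mul_nonneg hc (pow_nonneg inv_p_pos.le J))
        ((mul_le_of_le_one_right hc (pow_le_one₀ inv_p_pos.le inv_p_lt_one.le)).trans hcp) ih
  have hdiff : ∀ J, MB (Y (J + 1) - (p : ℂ_[p]) • Y J) ((c * (p : ℝ)⁻¹ ^ J) ^ 2) := by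
    intro J
    rw [hsucc]
    exact mb_pow_linear (mul_nonneg hc (pow_nonneg inv_p_pos.le J))
      ((mul_le_of_le_one_right hc (pow_le_one₀ inv_p_pos.le inv_p_lt_one.le)).trans hc1) (hYb J) p
  set Z : ℕ → Matrix (Fin n) (Fin n) ℂ_[p] := fun J => ((p : ℂ_[p]) ^ J)⁻¹ • Y J with hZ
  have hp0 : (0 : ℝ) < p := by exact_mod_cast (Fact.out : p.Prime).pos
  have hstep : ∀ J, MB (Z (J + 1) - Z J) ((p : ℝ) * c ^ 2 * (p : ℝ)⁻¹ ^ J) := by
    intro J i j
    have h := hdiff J i j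
    simp only [Matrix.sub_apply, Matrix.smul_apply, smul_eq_mul] at h
    simp only [hZ, Matrix.sub_apply, Matrix.smul_apply, smul_eq_mul]
    rw [show ((p : ℂ_[p]) ^ (J + 1))⁻¹ * Y (J + 1) i j - ((p : ℂ_[p]) ^ J)⁻¹ * Y J i j =
      ((p : ℂ_[p]) ^ (J + 1))⁻¹ * (Y (J + 1) i j - (p : ℂ_[p]) * Y J i j) by
        have := p_ne_zero (p := p); field_simp; ring,
      norm_mul, norm_inv, norm_pow, norm_natCast_p]
    refine (mul_le_mul_of_nonneg_left h (by positivity)).trans (le_of_eq ?_)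
    rw [inv_pow, inv_inv, inv_pow, pow_succ]
    field_simp
  have hcau : ∀ i j, ∃ z, Tendsto (fun J => Z J i j) atTop (𝓝 z) ∧
      ‖z - Z 0 i j‖ ≤ (p : ℝ) * c ^ 2 := by
    intro i j
    have hd : ∀ J, dist (Z J i j) (Z (J + 1) i j) ≤ (p : ℝ) * c ^ 2 * (p : ℝ)⁻¹ ^ J := fun J => by
      rw [dist_comm, dist_eq_norm]
      simpa using hstep J i j
    obtain ⟨z, hz⟩ := cauchySeq_tendsto_of_complete
      (cauchySeq_of_le_geometric _ _ inv_p_lt_one hd)
    refine ⟨z, hz, le_of_tendsto ((hz.sub_const _).norm) (Eventually.of_forall fun J => ?_)⟩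
    refine norm_sub_le_of_steps (f := fun J => Z J i j) (by positivity) (k₀ := 0)
      (fun l _ => ?_) J (Nat.zero_le J)
    refine (hstep l i j).trans ?_
    exact mul_le_of_le_one_right (by positivity) (pow_le_one₀ inv_p_pos.le inv_p_lt_one.le)
  choose z hz hz0 using hcau
  refine ⟨Matrix.of z, fun i j => ?_, ?_⟩
  · rw [show (Matrix.of z - (B : ℂ_[p]) • X) i j =
      (z i j - Z 0 i j) + ((Y 0 - (B : ℂ_[p]) • X) i j) by simp [hZ]]
    refine (IsUltrametricDist.norm_add_le_max _ _).trans (max_le (hz0 i j) ?_)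
    refine ((mb_pow_linear hc hc1 hX B i j).trans ?_).trans' (le_of_eq ?_)
    · exact le_mul_of_one_le_left (sq_nonneg c) one_le_p
    · simp [hY]
  · exact tendsto_pi_nhds.mpr fun i => tendsto_pi_nhds.mpr fun j => hz i j

end Matrices

variable [NeZero n]

lemma mb_dirMat {κ : W p n →+* ℂ_[p]} (hκ : ∀ w, ‖κ w‖ ≤ 1) (w : K p n) (s : Fin n) :
    MB (dirMat κ w s) 1 := fun r j => by
  rw [dirMat, Matrix.of_apply]
  split_ifs
  · simp [norm_pow, pow_le_one₀, hκ]
  · rw [norm_mul, norm_pow, norm_pow, pow_one]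
    exact mul_le_one₀ (norm_natCast_le p) (by positivity) (pow_le_one₀ (norm_nonneg _) (hκ _))
  · simp

lemma char_injective {κ : W p n →+* ℂ_[p]} (hinj : Function.Injective κ) :
    Function.Injective (fun r : Fin n => ((powMonoidHom (p ^ (r : ℕ))).comp
      (κ.toMonoidHom.comp (WittVector.teichmuller p)) : K p n →* ℂ_[p])) := by
  intro r r' h
  have hp : p.Prime := Fact.out
  rcases Nat.lt_or_ge n 2 with hn | hn
  · apply Fin.ext
    omega
  have heq : ∀ w : K p n, w ^ p ^ (r : ℕ) = w ^ p ^ (r' : ℕ) := fun w => by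
    have h1 : κ (WittVector.teichmuller p w) ^ p ^ (r : ℕ) =
        κ (WittVector.teichmuller p w) ^ p ^ (r' : ℕ) := DFunLike.congr_fun h w
    rw [← map_pow, ← map_pow, ← map_pow, ← map_pow] at h1
    have h2 := hinj h1
    have h3 := congrArg WittVector.constantCoeff h2
    simp only [map_pow] at h3
    simpa [WittVector.teichmuller_coeff_zero] using h3
  obtain ⟨g, hg⟩ := IsCyclic.exists_ofOrder_eq_natCard (α := (K p n)ˣ)
  rw [Nat.card_units, GaloisField.card p n (by omega)] at hg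
  have h3 : g ^ p ^ (r : ℕ) = g ^ p ^ (r' : ℕ) := Units.ext (by simpa using heq g)
  have hlt : ∀ i : Fin n, p ^ (i : ℕ) < p ^ n - 1 := fun i => by
    have h4 : p ^ (i : ℕ) ≤ p ^ (n - 1) := Nat.pow_le_pow_right hp.pos (by omega)
    have h5 : p ^ n = p ^ (n - 1) * p := by rw [← pow_succ]; congr 1; omega
    have h6 : p ^ (n - 1) * 2 ≤ p ^ (n - 1) * p := Nat.mul_le_mul_left _ hp.two_le
    have h7 : 2 ≤ p ^ (n - 1) := le_trans hp.two_le (Nat.le_self_pow (by omega) p)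
    omega
  have h8 := pow_inj_mod.mp h3
  rw [hg, Nat.mod_eq_of_lt (hlt r), Nat.mod_eq_of_lt (hlt r')] at h8
  exact Fin.ext (Nat.pow_right_injective hp.two_le h8)

/-- The Teichmuller characters are linearly independent. -/
lemma char_li {κ : W p n →+* ℂ_[p]} (hinj : Function.Injective κ) :
    LinearIndependent ℂ_[p] (fun r : Fin n => fun w : K p n =>
        κ (WittVector.teichmuller p w) ^ p ^ (r : ℕ)) := by
  have h := (linearIndependent_monoidHom (K p n) ℂ_[p]).comp _ (char_injective hinj)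
  convert h using 1 <;> first | rfl | (funext r w; rfl)

/-- The directions move a nonzero vector to a spanning set. -/
theorem span_dirMat {κ : W p n →+* ℂ_[p]} (hinj : Function.Injective κ) {v : Fin n → ℂ_[p]}
    (hv : v ≠ 0) :
    Submodule.span ℂ_[p] (Set.range fun x : K p n × Fin n =>
      Matrix.vecMul v (dirMat κ x.1 x.2)) = ⊤ := by
  classical
  by_contra hne
  obtain ⟨f, hf0, hle⟩ := Submodule.exists_le_ker_of_lt_top _ (lt_top_iff_ne_top.mpr hne)
  apply hf0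
  obtain ⟨r₀, hr₀⟩ := Function.ne_iff.mp hv
  set fe : Fin n → ℂ_[p] := fun j => f (Pi.single j 1) with hfe
  have hf : ∀ x : Fin n → ℂ_[p], f x = ∑ j, x j * fe j := fun x => by
    conv_lhs => rw [← Finset.univ_sum_single x]
    rw [map_sum]
    refine Finset.sum_congr rfl fun j _ => ?_
    rw [hfe, ← smul_eq_mul, ← map_smul, ← Pi.single_smul', smul_eq_mul, mul_one]
  have key : ∀ s r : Fin n,
      fe (r + s) * v r * (p : ℂ_[p]) ^ (if s ≤ r + s then 0 else 1) = 0 := by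
    intro s
    have hli := char_li hinj
    refine Fintype.linearIndependent_iff.mp hli _ (funext fun w => ?_)
    have h := hle (Submodule.subset_span ⟨(w, s), rfl⟩)
    rw [LinearMap.mem_ker, hf] at h
    rw [← Equiv.sum_comp (Equiv.addRight s)] at h
    rw [Finset.sum_apply, Pi.zero_apply, ← h]
    refine Finset.sum_congr rfl fun r _ => ?_
    simp only [Pi.smul_apply, smul_eq_mul, Equiv.coe_addRight]
    rw [Matrix.vecMul, dotProduct, Finset.sum_eq_single r]
    · rw [dirMat, Matrix.of_apply, if_pos (add_sub_cancel_right r s).symm]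
      ring
    · intro i _ hi
      rw [dirMat, Matrix.of_apply, if_neg (by rwa [add_sub_cancel_right]), mul_zero]
    · simp
  have hfe0 : ∀ j, fe j = 0 := fun j => by
    have h := key (j - r₀) r₀
    rw [add_sub_cancel] at h
    rcases mul_eq_zero.mp h with h1 | h1
    · rcases mul_eq_zero.mp h1 with h2 | h2
      · exact h2
      · exact absurd h2 hr₀
    · exact absurd (pow_eq_zero_iff'.mp h1).1 p_ne_zero
  refine LinearMap.ext fun z => ?_
  rw [hf, LinearMap.zero_apply]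
  exact Finset.sum_eq_zero fun j _ => by rw [hfe0 j, mul_zero]

/-- From a spanning family, a complement of the line through `v`. -/
lemma exists_indep {ι : Type*} {v : Fin n → ℂ_[p]} (hv : v ≠ 0) (z : ι → Fin n → ℂ_[p])
    (hz : Submodule.span ℂ_[p] (Set.range z) = ⊤) :
    ∀ m, m ≤ n - 1 → ∃ g : Fin m → ι, LinearIndependent ℂ_[p] (Fin.cons v (z ∘ g)) := by
  intro m
  induction m with
  | zero =>
    intro _
    refine ⟨Fin.elim0, linearIndependent_finCons.mpr ⟨linearIndependent_empty_type, ?_⟩⟩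
    simpa using hv
  | succ m ih =>
    intro hm
    obtain ⟨g, hg⟩ := ih (by omega)
    obtain ⟨i, hi⟩ : ∃ i, z i ∉ Submodule.span ℂ_[p] (Set.range (Fin.cons v (z ∘ g))) := by
      by_contra hc
      push Not at hc
      have h1 : (⊤ : Submodule ℂ_[p] (Fin n → ℂ_[p])) ≤
          Submodule.span ℂ_[p] (Set.range (Fin.cons v (z ∘ g))) := by
        rw [← hz, Submodule.span_le]
        rintro x ⟨i, rfl⟩
        exact hc i
      have h2 := finrank_range_le_card (R := ℂ_[p])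
        (Fin.cons v (z ∘ g) : Fin (m + 1) → Fin n → ℂ_[p])
      rw [Set.finrank, top_le_iff.mp h1, finrank_top, Module.finrank_fin_fun, Fintype.card_fin] at h2
      omega
    refine ⟨Fin.snoc g i, ?_⟩
    rw [Fin.comp_snoc, Fin.cons_snoc_eq_snoc_cons]
    exact linearIndependent_finSnoc.mpr ⟨hg, hi⟩

variable {κ : W p n →+* ℂ_[p]} {ρ : ℝ} {F : FormalGroup (E p n)}

/-- For a direction, the velocity of the action and the velocity of the periods. -/
theorem velocity_of_dir (hA : ∀ g, IsAut p n F g → ∃! φ, ActsBy p n F g φ) (hF : IsNice p n F)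
    (hκ : ∀ w, ‖κ w‖ ≤ 1) (hinj : Function.Injective κ) (hρ : (p : ℝ)⁻¹ < ρ) (hρ1 : ρ < 1)
    {B : ℕ} (hB : ∀ g φ, ActsBy p n F g φ → lin (φ ^ B) = 1) {y : E p n →+* ℂ_[p]}
    (hy : OnBall κ ρ y) (w : K p n) (s : Fin n) {k₀ : ℕ} (hk₀ : 1 ≤ k₀) :
    ∃ (T : E p n →ₐ[W p n] E p n) (ℓ : Fin (n - 1) → ℂ_[p]) (Z : Matrix (Fin n) (Fin n) ℂ_[p])
      (C : ℝ), (∀ J : ℕ, ∃ g, ActsBy p n F g (T ^ p ^ J)) ∧
      (∀ J i, ‖y ((T ^ p ^ J) (u p n i)) - y (u p n i)‖ ≤ C * (p : ℝ)⁻¹ ^ J) ∧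
      Tendsto (fun J i => (y ((T ^ p ^ J) (u p n i)) - y (u p n i)) / (p : ℂ_[p]) ^ J) atTop
        (𝓝 ℓ) ∧
      MB (Z - ((B : ℂ_[p]) * (p : ℂ_[p]) ^ k₀) • dirMat κ w s) ((p : ℝ) * ((p : ℝ)⁻¹ ^ k₀) ^ 2) ∧
      ∃ q : ℕ → Fin n → ℂ_[p],
        (∀ J, q J = ((p : ℂ_[p]) ^ J)⁻¹ • (per (fun i => y ((T ^ p ^ J) (u p n i))) -
          per (fun i => y (u p n i)))) ∧
        ∃ sJ : ℕ → ℂ_[p], Tendsto (fun J => q J - sJ J • per (fun i => y (u p n i))) atTop
          (𝓝 (-Matrix.vecMul (per fun i => y (u p n i)) Z)) := by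
  have hn : 1 ≤ n := Nat.one_le_iff_ne_zero.mpr (NeZero.ne n)
  have hρ0 : 0 < ρ := inv_p_pos.trans hρ
  have hS : 1 ≤ (s : ℕ) + k₀ * n := le_trans (Nat.mul_pos hk₀ hn) (Nat.le_add_left _ _)
  obtain ⟨φ, hφ, -⟩ := hA _ (isAut_dirSeries hF hn hinj w hS)
  set T := φ ^ B with hTdef
  have hTact : ∀ J : ℕ, ∃ g, ActsBy p n F g (T ^ p ^ J) := fun J => by
    rw [hTdef, ← pow_mul]
    exact actsBy_pow hφ _
  obtain ⟨gT, hgT⟩ := actsBy_pow hφ B
  have hnear := near_of_lin hκ hρ hρ1 hgT.2.1 (hB _ _ hφ)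
  have hκp : ‖κ (p : W p n)‖ = (p : ℝ)⁻¹ := by rw [map_natCast, norm_natCast_p]
  obtain ⟨C, ℓ, hC, hℓ⟩ := hnear.exists_velocity hκp hρ0.le hρ1
    (hρ0.le.trans (le_max_left _ _)) (near_theta_lt_one hρ hρ1) hy
  set X := (p : ℂ_[p]) ^ k₀ • dirMat κ w s with hX
  set c₀ : ℝ := (p : ℝ)⁻¹ ^ k₀ with hc₀
  have hXb : MB X c₀ := by
    have h := (mb_dirMat hκ w s).smul (a := (p : ℂ_[p]) ^ k₀) (b := c₀)
      (by rw [norm_pow, norm_natCast_p])
    simpa using h
  obtain ⟨Z, hZ, hZt⟩ := exists_matrix_velocity (pow_nonneg inv_p_pos.le k₀)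
    (pow_le_of_le_one inv_p_pos.le inv_p_lt_one.le (by omega)) hXb B
  refine ⟨T, ℓ, Z, C, hTact, hC, hℓ, ?_, _, fun J => rfl, ?_⟩
  · rw [mul_smul]; exact hZ
  set a : ℕ → Fin (n - 1) → ℂ_[p] := fun m i => y ((φ ^ m) (u p n i)) with ha
  have hiter : ∀ m, ∃ cm : ℂ_[p], Matrix.vecMul (per (a m)) ((1 + X) ^ m) = cm • per (a 0) := by
    intro m
    induction m with
    | zero => exact ⟨1, by rw [pow_zero, Matrix.vecMul_one, one_smul]⟩
    | succ m ih =>
      obtain ⟨cm, hcm⟩ := ih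
      obtain ⟨g, hg⟩ := actsBy_pow hφ m
      have hym : OnBall κ ρ (y.comp ((φ ^ m : E p n →ₐ[W p n] E p n) : E p n →+* E p n)) :=
        onBall_comp hκ hρ hρ1 hy hg.2.1
      obtain ⟨c, hc⟩ := period_identity hF hκ hρ hρ1 hym w s hk₀ hφ
      refine ⟨c * cm, ?_⟩
      have e : a (m + 1) = fun i =>
          (y.comp ((φ ^ m : E p n →ₐ[W p n] E p n) : E p n →+* E p n)) (φ (u p n i)) := by
        funext i; simp [ha, pow_succ]
      rw [pow_succ' (1 + X), ← Matrix.vecMul_vecMul, e, hc, Matrix.smul_vecMul]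
      change c • Matrix.vecMul (per (a m)) ((1 + X) ^ m) = _
      rw [hcm, smul_smul]
  choose cm hcm using hiter
  refine ⟨fun J => ((p : ℂ_[p]) ^ J)⁻¹ * (cm (B * p ^ J) - 1), ?_⟩
  have hTa : ∀ J, (fun i => y ((T ^ p ^ J) (u p n i))) = a (B * p ^ J) := fun J => by
    funext i; simp only [ha, hTdef, ← pow_mul]
  have h0 : a 0 = fun i => y (u p n i) := by funext i; simp [ha]
  have hball : ∀ m i, ‖a m i‖ ≤ ρ := fun m => by
    obtain ⟨g, hg⟩ := actsBy_pow hφ m
    exact (onBall_comp hκ hρ hρ1 hy hg.2.1).small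
  -- periods along the orbit converge to the periods
  have hconv : Tendsto (fun J => per (a (B * p ^ J))) atTop (𝓝 (per (a 0))) := by
    refine tendsto_pi_nhds.mpr fun j => ?_
    rw [tendsto_iff_norm_sub_tendsto_zero]
    obtain ⟨k, hk⟩ := (per_sub_uniform (p := p) hn hρ0 hρ1 one_pos).exists
    have hlim := (((tendsto_pow_atTop_nhds_zero_of_lt_one inv_p_pos.le
      (inv_p_lt_one (p := p))).const_mul (max C 0)).const_mul
        (max 1 ((p : ℝ) ^ (k * n + (j : ℕ)))))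
    rw [mul_zero, mul_zero] at hlim
    refine squeeze_zero (fun J => norm_nonneg _) (fun J => ?_) hlim
    have ht : ∀ i, ‖a (B * p ^ J) i - a 0 i‖ ≤ max C 0 * (p : ℝ)⁻¹ ^ J := fun i => by
      rw [← hTa, h0]
      exact (hC J i).trans (mul_le_mul_of_nonneg_right (le_max_left _ _)
        (pow_nonneg inv_p_pos.le J))
    have ht0 : 0 ≤ max C 0 * (p : ℝ)⁻¹ ^ J :=
      mul_nonneg (le_max_right _ _) (pow_nonneg inv_p_pos.le J)
    have h1 := hk (a 0) (a (B * p ^ J)) (hball 0) (hball _) _ ht0 ht j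
    have h2 := norm_logCoeff_sub (fun i => (hball 0 i).trans hρ1.le)
      (fun i => (hball (B * p ^ J) i).trans hρ1.le) ht0 ht (k * n + j)
    have h3 : ‖approxPer (a (B * p ^ J)) k j - approxPer (a 0) k j‖ ≤
        (p : ℝ) ^ (k * n + (j : ℕ)) * (max C 0 * (p : ℝ)⁻¹ ^ J) := by
      rw [approxPer, approxPer, ← mul_sub, norm_mul, norm_pow, norm_natCast_p]
      exact (mul_le_of_le_one_left (norm_nonneg _)
        (pow_le_one₀ inv_p_pos.le inv_p_lt_one.le)).trans h2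
    rw [show per (a (B * p ^ J)) j - per (a 0) j =
      ((per (a (B * p ^ J)) j - per (a 0) j) -
        (approxPer (a (B * p ^ J)) k j - approxPer (a 0) k j)) +
        (approxPer (a (B * p ^ J)) k j - approxPer (a 0) k j) by ring]
    refine (IsUltrametricDist.norm_add_le_max _ _).trans (max_le (h1.trans ?_) (h3.trans ?_))
    · exact mul_le_mul_of_nonneg_right (le_max_left _ _) ht0
    · exact mul_le_mul_of_nonneg_right (le_max_right _ _) ht0
  have hcont : Continuous (fun x : (Fin n → ℂ_[p]) × Matrix (Fin n) (Fin n) ℂ_[p] =>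
      Matrix.vecMul x.1 x.2) := continuous_fst.matrix_vecMul continuous_snd
  have hmain := ((hcont.tendsto (per (a 0), Z)).comp (hconv.prodMk_nhds hZt)).neg
  rw [← h0]
  refine hmain.congr fun J => ?_
  have h := hcm (B * p ^ J)
  simp only [Function.comp_apply]
  rw [hTa J, Matrix.vecMul_smul, Matrix.vecMul_sub, Matrix.vecMul_one, h]
  module

/-- Some velocities of the action form a basis at every point of the ball. -/
theorem exists_spanning (hA : ∀ g, IsAut p n F g → ∃! φ, ActsBy p n F g φ) (hF : IsNice p n F)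
    (hκ : ∀ w, ‖κ w‖ ≤ 1) (hinj : Function.Injective κ) (hρ : (p : ℝ)⁻¹ < ρ) (hρ1 : ρ < 1)
    {B : ℕ} (hB0 : B ≠ 0) (hB : ∀ g φ, ActsBy p n F g φ → lin (φ ^ B) = 1)
    {y : E p n →+* ℂ_[p]} (hy : OnBall κ ρ y) :
    ∃ (T : Fin (n - 1) → E p n →ₐ[W p n] E p n) (ℓ : Fin (n - 1) → Fin (n - 1) → ℂ_[p])
      (C : Fin (n - 1) → ℝ),
      (∀ l (J : ℕ), ∃ g, ActsBy p n F g (T l ^ p ^ J)) ∧
      (∀ l J i, ‖y ((T l ^ p ^ J) (u p n i)) - y (u p n i)‖ ≤ C l * (p : ℝ)⁻¹ ^ J) ∧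
      (∀ l, Tendsto (fun J i => (y ((T l ^ p ^ J) (u p n i)) - y (u p n i)) / (p : ℂ_[p]) ^ J)
        atTop (𝓝 (ℓ l))) ∧
      LinearIndependent ℂ_[p] ℓ := by
  classical
  have hn : 1 ≤ n := Nat.one_le_iff_ne_zero.mpr (NeZero.ne n)
  have hρ0 : 0 < ρ := inv_p_pos.trans hρ
  set a := fun i => y (u p n i) with ha
  set v := per a with hv
  have hv0 : v ≠ 0 := per_ne_zero hn hρ0 hρ1 hy.small
  obtain ⟨g, hg⟩ := exists_indep hv0
    (fun x : K p n × Fin n => Matrix.vecMul v (dirMat κ x.1 x.2))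
    (span_dirMat hinj hv0) (n - 1) le_rfl
  have hdata : ∀ (l : Fin (n - 1)) (k : ℕ), _ := fun l k =>
    velocity_of_dir hA hF hκ hinj hρ hρ1 hB hy (g l).1 (g l).2 (k₀ := k + 1) (Nat.le_add_left 1 k)
  choose T ℓ Z C hT hC hℓ hZ q hq sJ hsJ using hdata
  have hBne : (B : ℂ_[p]) ≠ 0 := by exact_mod_cast hB0
  set β : ℕ → ℂ_[p] := fun k => (B : ℂ_[p]) * (p : ℂ_[p]) ^ (k + 1) with hβ
  have hβ0 : ∀ k, β k ≠ 0 := fun k => mul_ne_zero hBne (pow_ne_zero _ p_ne_zero)
  have hW : Tendsto (fun k (l : Fin (n - 1)) => (β k)⁻¹ • Z l k) atTop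
      (𝓝 fun l => dirMat κ (g l).1 (g l).2) := by
    refine tendsto_pi_nhds.mpr fun l => tendsto_pi_nhds.mpr fun i => tendsto_pi_nhds.mpr fun j => ?_
    rw [tendsto_iff_norm_sub_tendsto_zero]
    have hlim := (((tendsto_pow_atTop_nhds_zero_of_lt_one inv_p_pos.le
      (inv_p_lt_one (p := p))).comp (tendsto_add_atTop_nat 1)).const_mul
        ((p : ℝ) * ‖(B : ℂ_[p])‖⁻¹))
    rw [mul_zero] at hlim
    refine squeeze_zero (fun k => norm_nonneg _) (fun k => ?_) hlim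
    have h := hZ l k i j
    simp only [Matrix.sub_apply, Matrix.smul_apply, smul_eq_mul] at h ⊢
    rw [show (β k)⁻¹ * Z l k i j - dirMat κ (g l).1 (g l).2 i j =
      (β k)⁻¹ * (Z l k i j - β k * dirMat κ (g l).1 (g l).2 i j) by
        rw [mul_sub, inv_mul_cancel_left₀ (hβ0 k)], norm_mul, norm_inv, hβ, norm_mul, norm_pow,
      norm_natCast_p]
    refine (mul_le_mul_of_nonneg_left h (by positivity)).trans (le_of_eq ?_)
    have h1 : (0 : ℝ) < (p : ℝ)⁻¹ ^ (k + 1) := pow_pos inv_p_pos _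
    have h2 : ‖(B : ℂ_[p])‖ ≠ 0 := norm_ne_zero_iff.mpr hBne
    simp only [Function.comp_apply]
    field_simp
  set fam : ℕ → Fin (n - 1 + 1) → Fin n → ℂ_[p] :=
    fun k => Fin.cons v (fun l => Matrix.vecMul v ((β k)⁻¹ • Z l k)) with hfam
  have hfamt : Tendsto fam atTop
      (𝓝 (Fin.cons v fun l => Matrix.vecMul v (dirMat κ (g l).1 (g l).2))) := by
    refine tendsto_pi_nhds.mpr fun i => ?_
    refine Fin.cases ?_ (fun l => ?_) i
    · simp [hfam, tendsto_const_nhds]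
    · simp only [hfam, Fin.cons_succ]
      exact ((continuous_const.matrix_vecMul continuous_id).tendsto _).comp
        (tendsto_pi_nhds.mp hW l)
  obtain ⟨k, hk⟩ := (hfamt.eventually
    (isOpen_setOf_linearIndependent.mem_nhds hg)).exists
  refine ⟨fun l => T l k, fun l => ℓ l k, fun l => C l k, fun l => hT l k, fun l => hC l k,
    fun l => hℓ l k, Fintype.linearIndependent_iff.mpr fun b hb => ?_⟩
  -- differences of periods along the velocities
  have hsum0 : Tendsto (fun J => ∑ l, b l • q l k J) atTop (𝓝 0) := by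
    refine tendsto_pi_nhds.mpr fun j => ?_
    rw [Metric.tendsto_atTop]
    intro ε hε
    set Cm : ℝ := 1 + ∑ l, |C l k| with hCm
    have hCl : ∀ l, C l k ≤ Cm := fun l => (le_abs_self _).trans
      ((Finset.single_le_sum (f := fun l => |C l k|) (fun _ _ => abs_nonneg _)
        (Finset.mem_univ l)).trans (le_add_of_nonneg_left zero_le_one))
    have hCm0 : 0 < Cm := by positivity
    set Bs : ℝ := 1 + ∑ l, ‖b l‖ with hBs
    have hBs0 : 0 < Bs := by positivity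
    obtain ⟨κ', hκ'⟩ := (per_sub_uniform (p := p) hn hρ0 hρ1
      (ε := ε / (4 * Bs * Cm)) (by positivity)).exists
    obtain ⟨Tl, M, hM, hTl⟩ := d2_approxPer (p := p) (fun i => (hy.small i).trans hρ1.le) κ' j
    have hTc : Continuous Tl := LinearMap.continuous_of_finiteDimensional Tl
    have hvel : Tendsto (fun J => ∑ l, b l •
        (fun i => (y ((T l k ^ p ^ J) (u p n i)) - y (u p n i)) / (p : ℂ_[p]) ^ J)) atTop
        (𝓝 (∑ l, b l • ℓ l k)) :=
      tendsto_finsetSum _ fun l _ => (hℓ l k).const_smul (b l)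
    rw [hb] at hvel
    have h1 := ((hTc.tendsto 0).comp hvel).norm
    rw [map_zero, norm_zero] at h1
    have h2 := (tendsto_pow_atTop_nhds_zero_of_lt_one inv_p_pos.le
      (inv_p_lt_one (p := p))).const_mul (M * Cm ^ 2 * Bs)
    rw [mul_zero] at h2
    obtain ⟨J₀, hJ₀⟩ := eventually_atTop.mp
      ((h1.eventually (eventually_lt_nhds (show (0 : ℝ) < ε / 2 by positivity))).and
        (h2.eventually (eventually_lt_nhds (show (0 : ℝ) < ε / 4 by positivity))))
    refine ⟨J₀, fun J hJ => ?_⟩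
    obtain ⟨e1, e2⟩ := hJ₀ J hJ
    simp only [Function.comp_apply] at e1
    rw [Pi.zero_apply, dist_zero_right, Finset.sum_apply]
    set δ : Fin (n - 1) → Fin (n - 1) → ℂ_[p] :=
      fun l i => y ((T l k ^ p ^ J) (u p n i)) - y (u p n i) with hδ
    have hterm : ∀ l, ‖q l k J j - ((p : ℂ_[p]) ^ J)⁻¹ * Tl (δ l)‖ ≤
        ε / (4 * Bs) + M * Cm ^ 2 * (p : ℝ)⁻¹ ^ J := by
      intro l
      obtain ⟨gJ, hgJ⟩ := hT l k J
      have hyJ := onBall_comp hκ hρ hρ1 hy hgJ.2.1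
      have ht0 : 0 ≤ Cm * (p : ℝ)⁻¹ ^ J := mul_nonneg hCm0.le (pow_nonneg inv_p_pos.le J)
      have ht : ∀ i, ‖y ((T l k ^ p ^ J) (u p n i)) - a i‖ ≤ Cm * (p : ℝ)⁻¹ ^ J := fun i =>
        (hC l k J i).trans (mul_le_mul_of_nonneg_right (hCl l) (pow_nonneg inv_p_pos.le J))
      have h3 := hκ' a (fun i => y ((T l k ^ p ^ J) (u p n i))) hy.small hyJ.small _ ht0 ht j
      have h4 := (hTl (fun i => y ((T l k ^ p ^ J) (u p n i))) (fun i => hy.integral _) _ ht0 ht).2
      simp only [hq, Pi.smul_apply, Pi.sub_apply, smul_eq_mul, ← mul_sub, norm_mul, norm_inv,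
        norm_pow, norm_natCast_p]
      rw [inv_pow, inv_inv]
      have h5 : ‖per (fun i => y ((T l k ^ p ^ J) (u p n i))) j - per a j - Tl (δ l)‖ ≤
          ε / (4 * Bs * Cm) * (Cm * (p : ℝ)⁻¹ ^ J) + M * (Cm * (p : ℝ)⁻¹ ^ J) ^ 2 := by
        refine le_trans (le_of_eq ?_) ((norm_add_le _ _).trans (add_le_add h3 h4))
        congr 1
        rw [show (fun i => y ((T l k ^ p ^ J) (u p n i))) - a = δ l from rfl]
        ring
      refine (mul_le_mul_of_nonneg_left h5 (by positivity)).trans (le_of_eq ?_)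
      rw [inv_pow]
      have : (0 : ℝ) < (p : ℝ) ^ J := pow_pos (by exact_mod_cast (Fact.out : p.Prime).pos) J
      field_simp
    have hlin : ∑ l, b l * (((p : ℂ_[p]) ^ J)⁻¹ * Tl (δ l)) =
        Tl (∑ l, b l • (fun i => δ l i / (p : ℂ_[p]) ^ J)) := by
      rw [map_sum]
      refine Finset.sum_congr rfl fun l _ => ?_
      rw [show (fun i => δ l i / (p : ℂ_[p]) ^ J) = ((p : ℂ_[p]) ^ J)⁻¹ • δ l by
        funext i; simp [div_eq_inv_mul], map_smul, map_smul]
      rfl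
    calc ‖∑ l, (b l • q l k J) j‖
        = ‖(∑ l, b l * (q l k J j - ((p : ℂ_[p]) ^ J)⁻¹ * Tl (δ l))) +
            ∑ l, b l * (((p : ℂ_[p]) ^ J)⁻¹ * Tl (δ l))‖ := by
          rw [← Finset.sum_add_distrib]
          congr 1
          exact Finset.sum_congr rfl fun l _ => by simp [mul_sub]
      _ ≤ (∑ l, ‖b l‖) * (ε / (4 * Bs) + M * Cm ^ 2 * (p : ℝ)⁻¹ ^ J) + ε / 2 := by
          refine (norm_add_le _ _).trans (add_le_add ?_ (by rw [hlin]; exact e1.le))
          refine (norm_sum_le _ _).trans ?_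
          rw [Finset.sum_mul]
          exact Finset.sum_le_sum fun l _ => by
            rw [norm_mul]; exact mul_le_mul_of_nonneg_left (hterm l) (norm_nonneg _)
      _ ≤ Bs * (ε / (4 * Bs) + M * Cm ^ 2 * (p : ℝ)⁻¹ ^ J) + ε / 2 := by
          gcongr
          exact le_add_of_nonneg_left zero_le_one
      _ = ε / 4 + M * Cm ^ 2 * Bs * (p : ℝ)⁻¹ ^ J + ε / 2 := by field_simp
      _ < ε := by linarith
  set D := ∑ l, b l • (-Matrix.vecMul v (Z l k)) with hD
  have hspan : D ∈ Submodule.span ℂ_[p] ({v} : Set (Fin n → ℂ_[p])) := by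
    have h1 : Tendsto (fun J => (∑ l, b l • (q l k J - sJ l k J • v)) - ∑ l, b l • q l k J)
        atTop (𝓝 (D - 0)) :=
      (tendsto_finsetSum _ fun l _ => (hsJ l k).const_smul (b l)).sub hsum0
    rw [sub_zero] at h1
    refine (Submodule.closed_of_finiteDimensional _).mem_of_tendsto h1
      (Eventually.of_forall fun J => ?_)
    rw [SetLike.mem_coe, ← Finset.sum_sub_distrib]
    refine Submodule.sum_mem _ fun l _ => ?_
    rw [smul_sub, sub_sub_cancel_left, smul_smul]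
    exact Submodule.neg_mem _ (Submodule.smul_mem _ _ (Submodule.subset_span rfl))
  obtain ⟨c, hc⟩ := Submodule.mem_span_singleton.mp hspan
  have hrel : ∑ i, (Fin.cons c (fun l => b l * β k) : Fin (n - 1 + 1) → ℂ_[p]) i • fam k i = 0 := by
    rw [Fin.sum_univ_succ]
    simp only [hfam, Fin.cons_zero, Fin.cons_succ]
    rw [hc, hD, ← Finset.sum_add_distrib]
    refine Finset.sum_eq_zero fun l _ => ?_
    rw [Matrix.vecMul_smul, smul_smul, mul_assoc, mul_inv_cancel₀ (hβ0 k), mul_one, smul_neg,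
      neg_add_cancel]
  intro l
  have h := Fintype.linearIndependent_iff.mp hk _ hrel l.succ
  rw [Fin.cons_succ, mul_eq_zero] at h
  exact h.resolve_right (hβ0 k)

end

end Vale.Agent.P217.CharZero
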