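import Vale.Agent.P217.Iface
import Vale.Agent.P217.CharZero.Velocity

/-!
P217, h = 0: orbits of points of characteristic zero are dense.
-/

namespace Vale.Agent.P217.CharZero

noncomputable section

open Filter Topology

variable {p n : ℕ} [Fact p.Prime]

/-- A map from W(F_q) to a field of characteristic zero is injective. -/
lemma kappa_injective [NeZero n] (κ : W p n →+* ℂ_[p]) : Function.Injective κ := by
  rw [injective_iff_map_eq_zero]
  intro a ha
  by_contra h
  obtain ⟨m, b, rfl⟩ := WittVector.exists_eq_pow_p_mul' a h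
  rw [map_mul, map_pow, map_natCast, mul_eq_zero] at ha
  rcases ha with ha | ha
  · exact pow_ne_zero m p_ne_zero ha
  · exact (b.isUnit.map κ).ne_zero ha

/-- M10: orbits of characteristic zero points are dense. -/
theorem charZeroCore (hA : ActionStatement p n) : CharZeroCore p n := by
  intro hn F hF _ x hint hsmall f hf
  haveI : NeZero n := ⟨by omega⟩
  have hA' := hA hn F hF
  set κ : W p n →+* ℂ_[p] := x.comp MvPowerSeries.C with hκdef
  have hκ : ∀ w, ‖κ w‖ ≤ 1 := fun w => hint _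
  have hinj : Function.Injective κ := kappa_injective κ
  set ρ : ℝ := max ((1 + (p : ℝ)⁻¹) / 2) ‖fun j => x (u p n j)‖ with hρdef
  have hp1 : (p : ℝ)⁻¹ < 1 := inv_p_lt_one
  have hρ : (p : ℝ)⁻¹ < ρ :=
    lt_of_lt_of_le (show (p : ℝ)⁻¹ < (1 + (p : ℝ)⁻¹) / 2 by linarith) (le_max_left _ _)
  have hρ1 : ρ < 1 := max_lt (by linarith) ((pi_norm_lt_iff one_pos).mpr hsmall)
  have hρ0 : 0 < ρ := inv_p_pos.trans hρ
  have hx : OnBall κ ρ x := ⟨fun w => rfl, hint,
    fun i => le_trans (norm_le_pi_norm (fun j => x (u p n j)) i) (le_max_right _ _)⟩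
  obtain ⟨B, hB0, hB⟩ := exists_order hA'
  refine eq_zero_of_derivs hinj hκ hρ0 hρ1 hx
    {g : E p n | ∀ g' φ, ActsBy p n F g' φ → x (φ g) = 0}
    (fun e he => ⟨by simpa using he _ _ (actsBy_one F), fun i g' φ hφ => ?_⟩) hf
  have hy : OnBall κ ρ (x.comp (φ : E p n →+* E p n)) := onBall_comp hκ hρ hρ1 hx hφ.2.1
  set y := x.comp (φ : E p n →+* E p n) with hydef
  obtain ⟨T, ℓ, C, hT, hC, hℓ, hli⟩ := exists_spanning hA' hF hκ hinj hρ hρ1 hB0 hB hy
  -- the differential at the point kills every velocity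
  have hker : ∀ l, ∑ k, y (dd k e) * ℓ l k = 0 := by
    intro l
    have hz : Tendsto (fun J => ∑ k, y (dd k e) *
        ((y ((T l ^ p ^ J) (u p n k)) - y (u p n k)) / (p : ℂ_[p]) ^ J)) atTop
        (𝓝 (∑ k, y (dd k e) * ℓ l k)) :=
      tendsto_finsetSum _ fun k _ => (tendsto_pi_nhds.mp (hℓ l) k).const_mul _
    have hlim : Tendsto (fun J : ℕ => max (C l) 0 ^ 2 * (p : ℝ)⁻¹ ^ J) atTop (𝓝 0) := by
      simpa using (tendsto_pow_atTop_nhds_zero_of_lt_one inv_p_pos.le
        (inv_p_lt_one (p := p))).const_mul (max (C l) 0 ^ 2)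
    refine tendsto_nhds_unique hz (squeeze_zero_norm (fun J => ?_) hlim)
    obtain ⟨gJ, hgJ⟩ := hT l J
    have hyJ := onBall_comp hκ hρ hρ1 hy hgJ.2.1
    have ht0 : 0 ≤ max (C l) 0 * (p : ℝ)⁻¹ ^ J :=
      mul_nonneg (le_max_right _ _) (pow_nonneg inv_p_pos.le J)
    have h := first_order hκ hρ0.le hρ1 hy hyJ ht0 (fun k => (hC l J k).trans
      (mul_le_mul_of_nonneg_right (le_max_left _ _) (pow_nonneg inv_p_pos.le J))) e
    have h1 : x (φ e) = 0 := he _ _ hφ
    have h2 : x (φ ((T l ^ p ^ J) e)) = 0 := by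
      simpa using he _ _ (actsBy_mul hφ hgJ)
    simp only [hydef, RingHom.comp_apply, RingHom.coe_coe, h1, h2, sub_zero, zero_sub, norm_neg]
      at h
    simp only [mul_div, ← Finset.sum_div, norm_div, norm_pow, norm_natCast_p, hydef,
      RingHom.comp_apply, RingHom.coe_coe]
    rw [div_le_iff₀ (pow_pos inv_p_pos J)]
    calc _ ≤ (max (C l) 0 * (p : ℝ)⁻¹ ^ J) ^ 2 := h
      _ = _ := by ring
  -- the velocities span, so the differential vanishes
  haveI : Nonempty (Fin (n - 1)) := ⟨i⟩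
  have hspan := hli.span_eq_top_of_card_eq_finrank (by simp)
  have hzero : ∀ z : Fin (n - 1) → ℂ_[p], ∑ k, y (dd k e) * z k = 0 := by
    intro z
    have hz : z ∈ Submodule.span ℂ_[p] (Set.range ℓ) := hspan ▸ Submodule.mem_top
    induction hz using Submodule.span_induction with
    | mem w hw => obtain ⟨l, rfl⟩ := hw; exact hker l
    | zero => simp
    | add a b _ _ ha hb => simp only [Pi.add_apply, mul_add, Finset.sum_add_distrib, ha, hb, add_zero]
    | smul c a _ ha =>
      simp only [Pi.smul_apply, smul_eq_mul, mul_left_comm _ c, ← Finset.mul_sum, ha, mul_zero]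
  simpa [Pi.single_apply, hydef] using hzero (Pi.single i 1)

end

end Vale.Agent.P217.CharZero
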