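import Vale.Agent.P217.CharZero.Gauss

/-!
P217, h = 0: periods of a point, from the Hazewinkel logarithm coefficients.
-/

namespace Vale.Agent.P217.CharZero

noncomputable section

open Filter Topology

variable {p n : ℕ} [Fact p.Prime]

/-- The coefficient attached to u_(i+1) in the recursion. -/
def coord (a : Fin (n - 1) → ℂ_[p]) (i : Fin n) : ℂ_[p] :=
  if h : (i : ℕ) < n - 1 then a ⟨i, h⟩ else 1

lemma logCoeff_succ (a : Fin (n - 1) → ℂ_[p]) (m : ℕ) :
    logCoeff p n a (m + 1) = (p : ℂ_[p])⁻¹ * ∑ i : Fin n,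
      if (i : ℕ) ≤ m then logCoeff p n a (m - i) * coord a i ^ (p ^ (m - i)) else 0 := by
  rw [logCoeff]
  rfl

lemma norm_coord {a : Fin (n - 1) → ℂ_[p]} (ha : ∀ i, ‖a i‖ ≤ 1) (i : Fin n) :
    ‖coord a i‖ ≤ 1 := by
  unfold coord
  split_ifs
  · exact ha _
  · simp

lemma norm_coord_sub {a a' : Fin (n - 1) → ℂ_[p]} {t : ℝ} (ht : 0 ≤ t)
    (hd : ∀ i, ‖a' i - a i‖ ≤ t) (i : Fin n) : ‖coord a' i - coord a i‖ ≤ t := by
  unfold coord
  split_ifs
  · exact hd _
  · simpa using ht

lemma norm_pow_sub_pow {a b : ℂ_[p]} {r : ℝ} (ha : ‖a‖ ≤ r) (hb : ‖b‖ ≤ r) (m : ℕ) :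
    ‖a ^ m - b ^ m‖ ≤ ‖a - b‖ * r ^ (m - 1) := by
  have hr : 0 ≤ r := (norm_nonneg a).trans ha
  rw [← geom_sum₂_mul, norm_mul, mul_comm]
  refine mul_le_mul_of_nonneg_left ?_ (norm_nonneg _)
  refine IsUltrametricDist.norm_sum_le_of_forall_le_of_nonneg (pow_nonneg hr _) fun l hl => ?_
  rw [Finset.mem_range] at hl
  rw [norm_mul, norm_pow, norm_pow]
  calc ‖a‖ ^ l * ‖b‖ ^ (m - 1 - l) ≤ r ^ l * r ^ (m - 1 - l) := by gcongr
    _ = r ^ (m - 1) := by rw [← pow_add]; congr 1; omega

lemma one_le_p : (1 : ℝ) ≤ p := by exact_mod_cast (Fact.out : p.Prime).one_le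

lemma norm_inv_p : ‖(p : ℂ_[p])⁻¹‖ = p := by rw [norm_inv, norm_natCast_p, inv_inv]

lemma norm_logCoeff {a : Fin (n - 1) → ℂ_[p]} (ha : ∀ i, ‖a i‖ ≤ 1) :
    ∀ m, ‖logCoeff p n a m‖ ≤ (p : ℝ) ^ m := by
  intro m
  induction m using Nat.strong_induction_on with
  | _ m ih =>
    match m with
    | 0 => rw [logCoeff]; simp
    | m + 1 =>
      rw [logCoeff_succ, norm_mul, norm_inv_p, pow_succ']
      refine mul_le_mul_of_nonneg_left ?_ (by positivity)
      refine IsUltrametricDist.norm_sum_le_of_forall_le_of_nonneg (by positivity) fun i _ => ?_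
      split_ifs with h
      · rw [norm_mul, norm_pow]
        refine (mul_le_of_le_one_right (norm_nonneg _)
          (pow_le_one₀ (norm_nonneg _) (norm_coord ha i))).trans ((ih _ (by omega)).trans ?_)
        exact pow_le_pow_right₀ one_le_p (Nat.sub_le _ _)
      · simp

lemma norm_logCoeff_sub {a a' : Fin (n - 1) → ℂ_[p]} (ha : ∀ i, ‖a i‖ ≤ 1) (ha' : ∀ i, ‖a' i‖ ≤ 1)
    {t : ℝ} (ht : 0 ≤ t) (hd : ∀ i, ‖a' i - a i‖ ≤ t) :
    ∀ m, ‖logCoeff p n a' m - logCoeff p n a m‖ ≤ (p : ℝ) ^ m * t := by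
  intro m
  induction m using Nat.strong_induction_on with
  | _ m ih =>
    match m with
    | 0 => rw [logCoeff, logCoeff]; simpa using ht
    | m + 1 =>
      rw [logCoeff_succ, logCoeff_succ, ← mul_sub, norm_mul, norm_inv_p, pow_succ', mul_assoc,
        ← Finset.sum_sub_distrib]
      refine mul_le_mul_of_nonneg_left ?_ (by positivity)
      refine IsUltrametricDist.norm_sum_le_of_forall_le_of_nonneg (by positivity) fun i _ => ?_
      split_ifs with h
      · set b := logCoeff p n a (m - i)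
        set b' := logCoeff p n a' (m - i)
        set e := p ^ (m - (i : ℕ))
        have hpm : (p : ℝ) ^ (m - (i : ℕ)) ≤ (p : ℝ) ^ m :=
          pow_le_pow_right₀ one_le_p (Nat.sub_le _ _)
        rw [show b' * coord a' i ^ e - b * coord a i ^ e =
          (b' - b) * coord a' i ^ e + b * (coord a' i ^ e - coord a i ^ e) by ring]
        refine (IsUltrametricDist.norm_add_le_max _ _).trans (max_le ?_ ?_)
        · rw [norm_mul, norm_pow]
          refine (mul_le_of_le_one_right (norm_nonneg _)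
            (pow_le_one₀ (norm_nonneg _) (norm_coord ha' i))).trans ?_
          exact (ih _ (by omega)).trans (mul_le_mul_of_nonneg_right hpm ht)
        · rw [norm_mul]
          refine mul_le_mul ((norm_logCoeff ha _).trans hpm) ?_ (norm_nonneg _) (by positivity)
          refine (norm_pow_sub_pow (norm_coord ha' i) (norm_coord ha i) e).trans ?_
          rw [one_pow, mul_one]
          exact norm_coord_sub ht hd i
      · simp only [sub_zero, norm_zero]
        positivity

/-- The k-th approximation of the j-th period. -/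
def approxPer (a : Fin (n - 1) → ℂ_[p]) (k : ℕ) (j : Fin n) : ℂ_[p] :=
  (p : ℂ_[p]) ^ k * logCoeff p n a (k * n + j)

/-- The periods. -/
def per (a : Fin (n - 1) → ℂ_[p]) (j : Fin n) : ℂ_[p] :=
  limUnder atTop (fun k => approxPer a k j)

lemma logCoeff_step (a : Fin (n - 1) → ℂ_[p]) {m : ℕ} (hm : n - 1 ≤ m) (hn : 1 ≤ n) :
    (p : ℂ_[p]) * logCoeff p n a (m + 1) = logCoeff p n a (m - (n - 1)) +
      ∑ i : Fin n, if (i : ℕ) < n - 1 then
        logCoeff p n a (m - i) * coord a i ^ (p ^ (m - i)) else 0 := by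
  obtain ⟨N, rfl⟩ : ∃ N, n = N + 1 := ⟨n - 1, by omega⟩
  rw [logCoeff_succ, ← mul_assoc, mul_inv_cancel₀ p_ne_zero, one_mul, Fin.sum_univ_castSucc,
    Fin.sum_univ_castSucc (f := fun i : Fin (N + 1) => if (i : ℕ) < N + 1 - 1 then
      logCoeff p (N + 1) a (m - i) * coord a i ^ (p ^ (m - i)) else 0)]
  have hN : N ≤ m := by omega
  have e1 : ∀ i : Fin N, (i : ℕ) ≤ m := fun i => by omega
  simp only [Fin.val_castSucc, Fin.val_last, Nat.add_sub_cancel, Fin.is_lt, lt_irrefl, if_true,
    if_false, e1, hN, add_zero]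
  rw [coord, dif_neg (by simp), one_pow, mul_one]
  ring

lemma approxPer_succ_sub (a : Fin (n - 1) → ℂ_[p]) (k : ℕ) (j : Fin n) :
    approxPer a (k + 1) j - approxPer a k j = (p : ℂ_[p]) ^ k * ∑ i : Fin n,
      if (i : ℕ) < n - 1 then logCoeff p n a ((k + 1) * n + j - 1 - i) *
        coord a i ^ (p ^ ((k + 1) * n + (j : ℕ) - 1 - i)) else 0 := by
  have hn : 1 ≤ n := j.pos
  have e : (k + 1) * n + (j : ℕ) = ((k + 1) * n + j - 1) + 1 := by
    have : n ≤ (k + 1) * n := Nat.le_mul_of_pos_left n (Nat.succ_pos k)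
    omega
  have e2 : (k + 1) * n + (j : ℕ) - 1 - (n - 1) = k * n + j := by
    rw [add_one_mul]; omega
  have h := logCoeff_step a (m := (k + 1) * n + j - 1) (by
    have : n ≤ (k + 1) * n := Nat.le_mul_of_pos_left n (Nat.succ_pos k)
    omega) hn
  rw [← e, e2] at h
  rw [approxPer, approxPer, pow_succ, mul_assoc, h]
  ring

/-- The size of the k-th increment of the periods on the ball of radius `ρ`. -/
def eps (p n : ℕ) (ρ : ℝ) (k : ℕ) : ℝ := (p : ℝ) ^ ((k + 2) * n) * ρ ^ (p ^ (k * n) - 1)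

lemma eps_nonneg {ρ : ℝ} (hρ : 0 ≤ ρ) (k : ℕ) : 0 ≤ eps p n ρ k := by unfold eps; positivity

lemma tendsto_eps {ρ : ℝ} (hn : 1 ≤ n) (hρ : 0 < ρ) (hρ1 : ρ < 1) :
    Tendsto (eps p n ρ) atTop (𝓝 0) := by
  have hp := (Fact.out : p.Prime).one_lt
  have h1 : Tendsto (fun k => p ^ (k * n)) atTop atTop :=
    (tendsto_pow_atTop_atTop_of_one_lt hp).comp (tendsto_id.atTop_mul_const' (by omega))
  have h2 := ((tendsto_self_mul_const_pow_of_lt_one hρ.le hρ1).comp h1).const_mul
    ((p : ℝ) ^ (2 * n) / ρ)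
  rw [mul_zero] at h2
  refine h2.congr fun k => ?_
  have h3 : 1 ≤ p ^ (k * n) := Nat.one_le_pow _ _ (by omega)
  simp only [Function.comp_apply, eps]
  rw [show (k + 2) * n = k * n + 2 * n by ring, pow_add]
  conv_lhs => rw [show ρ ^ p ^ (k * n) = ρ ^ (p ^ (k * n) - 1) * ρ by
    rw [← pow_succ, Nat.sub_add_cancel h3]]
  push_cast
  field_simp

variable {ρ : ℝ} {a a' : Fin (n - 1) → ℂ_[p]}

lemma norm_approxPer_succ_sub (hρ : 0 ≤ ρ) (hρ1 : ρ ≤ 1) (ha : ∀ i, ‖a i‖ ≤ ρ) (k : ℕ)
    (j : Fin n) : ‖approxPer a (k + 1) j - approxPer a k j‖ ≤ eps p n ρ k := by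
  have h1 : ∀ i, ‖a i‖ ≤ 1 := fun i => (ha i).trans hρ1
  rw [approxPer_succ_sub, norm_mul, norm_pow, norm_natCast_p]
  refine (mul_le_of_le_one_left (norm_nonneg _) (pow_le_one₀ inv_p_pos.le inv_p_lt_one.le)).trans ?_
  refine IsUltrametricDist.norm_sum_le_of_forall_le_of_nonneg (eps_nonneg hρ k) fun i _ => ?_
  split_ifs with hi
  · rw [norm_mul, norm_pow]
    refine mul_le_mul ((norm_logCoeff h1 _).trans (pow_le_pow_right₀ one_le_p ?_)) ?_
      (by positivity) (by positivity)
    · have := j.isLt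
      rw [show (k + 2) * n = (k + 1) * n + n by ring]
      omega
    · rw [coord, dif_pos hi]
      refine (pow_le_pow_left₀ (norm_nonneg _) (ha _) _).trans (pow_le_pow_of_le_one hρ hρ1 ?_)
      refine le_trans (Nat.sub_le _ _) (Nat.pow_le_pow_right (Fact.out : p.Prime).pos ?_)
      rw [add_one_mul]; omega
  · simpa using eps_nonneg hρ k

lemma norm_approxPer_succ_sub_sub (hρ : 0 ≤ ρ) (hρ1 : ρ ≤ 1) (ha : ∀ i, ‖a i‖ ≤ ρ)
    (ha' : ∀ i, ‖a' i‖ ≤ ρ) {t : ℝ} (ht : 0 ≤ t) (hd : ∀ i, ‖a' i - a i‖ ≤ t) (k : ℕ)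
    (j : Fin n) : ‖(approxPer a' (k + 1) j - approxPer a' k j) -
      (approxPer a (k + 1) j - approxPer a k j)‖ ≤ eps p n ρ k * t := by
  have h1 : ∀ i, ‖a i‖ ≤ 1 := fun i => (ha i).trans hρ1
  have h1' : ∀ i, ‖a' i‖ ≤ 1 := fun i => (ha' i).trans hρ1
  rw [approxPer_succ_sub, approxPer_succ_sub, ← mul_sub, ← Finset.sum_sub_distrib, norm_mul,
    norm_pow, norm_natCast_p]
  refine (mul_le_of_le_one_left (norm_nonneg _) (pow_le_one₀ inv_p_pos.le inv_p_lt_one.le)).trans ?_
  have he := mul_nonneg (eps_nonneg (p := p) (n := n) hρ k) ht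
  refine IsUltrametricDist.norm_sum_le_of_forall_le_of_nonneg he fun i _ => ?_
  split_ifs with hi
  · set m := (k + 1) * n + (j : ℕ) - 1 - i with hm
    have hlo : k * n ≤ m := by rw [hm, add_one_mul]; omega
    have hpm : (p : ℝ) ^ m ≤ (p : ℝ) ^ ((k + 2) * n) := pow_le_pow_right₀ one_le_p (by
      have := j.isLt
      rw [hm, show (k + 2) * n = (k + 1) * n + n by ring]
      omega)
    have hρm : ρ ^ (p ^ m - 1) ≤ ρ ^ (p ^ (k * n) - 1) := pow_le_pow_of_le_one hρ hρ1
      (Nat.sub_le_sub_right (Nat.pow_le_pow_right (Fact.out : p.Prime).pos hlo) 1)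
    have hc : ∀ b : Fin (n - 1) → ℂ_[p], (∀ i, ‖b i‖ ≤ ρ) → ‖coord b i‖ ≤ ρ := fun b hb => by
      rw [coord, dif_pos hi]; exact hb _
    rw [show logCoeff p n a' m * coord a' i ^ p ^ m - logCoeff p n a m * coord a i ^ p ^ m =
      (logCoeff p n a' m - logCoeff p n a m) * coord a' i ^ p ^ m +
        logCoeff p n a m * (coord a' i ^ p ^ m - coord a i ^ p ^ m) by ring]
    refine (IsUltrametricDist.norm_add_le_max _ _).trans (max_le ?_ ?_)
    · rw [norm_mul, norm_pow, eps]
      calc ‖logCoeff p n a' m - logCoeff p n a m‖ * ‖coord a' i‖ ^ p ^ m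
          ≤ ((p : ℝ) ^ m * t) * ρ ^ (p ^ (k * n) - 1) := by
            refine mul_le_mul (norm_logCoeff_sub h1 h1' ht hd m) ?_ (by positivity) (by positivity)
            refine (pow_le_pow_left₀ (norm_nonneg _) (hc _ ha') _).trans ?_
            exact le_trans (pow_le_pow_of_le_one hρ hρ1 (Nat.sub_le _ _)) hρm
        _ ≤ ((p : ℝ) ^ ((k + 2) * n) * t) * ρ ^ (p ^ (k * n) - 1) := by gcongr
        _ = _ := by ring
    · rw [norm_mul, eps, mul_assoc]
      refine mul_le_mul ((norm_logCoeff h1 m).trans hpm) ?_ (norm_nonneg _) (by positivity)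
      refine (norm_pow_sub_pow (hc _ ha') (hc _ ha) _).trans ?_
      rw [mul_comm]
      exact mul_le_mul hρm (norm_coord_sub ht hd i) (norm_nonneg _) (pow_nonneg hρ _)
  · simpa using he

lemma norm_sub_le_of_steps {f : ℕ → ℂ_[p]} {B : ℝ} (hB : 0 ≤ B) {k₀ : ℕ}
    (h : ∀ k ≥ k₀, ‖f (k + 1) - f k‖ ≤ B) : ∀ k ≥ k₀, ‖f k - f k₀‖ ≤ B := by
  intro k hk
  induction k, hk using Nat.le_induction with
  | base => simpa using hB
  | succ k hk ih =>
    rw [show f (k + 1) - f k₀ = (f (k + 1) - f k) + (f k - f k₀) by ring]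
    exact (IsUltrametricDist.norm_add_le_max _ _).trans (max_le (h k hk) ih)

theorem tendsto_per (hn : 1 ≤ n) (hρ : 0 < ρ) (hρ1 : ρ < 1) (ha : ∀ i, ‖a i‖ ≤ ρ) (j : Fin n) :
    Tendsto (fun k => approxPer a k j) atTop (𝓝 (per a j)) := by
  refine CauchySeq.tendsto_limUnder (Metric.cauchySeq_iff'.mpr fun ε hε => ?_)
  obtain ⟨k₀, hk₀⟩ := eventually_atTop.mp
    ((tendsto_eps (p := p) hn hρ hρ1).eventually (eventually_le_nhds (half_pos hε)))
  refine ⟨k₀, fun k hk => ?_⟩
  rw [dist_eq_norm]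
  refine lt_of_le_of_lt (norm_sub_le_of_steps (f := fun k => approxPer a k j) (half_pos hε).le
    (fun l hl => (norm_approxPer_succ_sub hρ.le hρ1.le ha l j).trans (hk₀ l hl)) k hk)
    (half_lt_self hε)

/-- Uniform approximation of differences of periods. -/
theorem per_sub_uniform (hn : 1 ≤ n) (hρ : 0 < ρ) (hρ1 : ρ < 1) {ε : ℝ} (hε : 0 < ε) :
    ∀ᶠ k in atTop, ∀ a a' : Fin (n - 1) → ℂ_[p], (∀ i, ‖a i‖ ≤ ρ) → (∀ i, ‖a' i‖ ≤ ρ) →
      ∀ t : ℝ, 0 ≤ t → (∀ i, ‖a' i - a i‖ ≤ t) → ∀ j,
        ‖(per a' j - per a j) - (approxPer a' k j - approxPer a k j)‖ ≤ ε * t := by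
  obtain ⟨k₀, hk₀⟩ := eventually_atTop.mp
    ((tendsto_eps (p := p) hn hρ hρ1).eventually (eventually_le_nhds hε))
  refine eventually_atTop.mpr ⟨k₀, fun k hk a a' ha ha' t ht hd j => ?_⟩
  refine le_of_tendsto ((((tendsto_per hn hρ hρ1 ha' j).sub
    (tendsto_per hn hρ hρ1 ha j)).sub_const _).norm) (eventually_atTop.mpr ⟨k, fun l hl => ?_⟩)
  refine norm_sub_le_of_steps (f := fun l => approxPer a' l j - approxPer a l j)
    (mul_nonneg hε.le ht) (k₀ := k) (fun q hq => ?_) l hl
  rw [sub_sub_sub_comm]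
  exact (norm_approxPer_succ_sub_sub hρ.le hρ1.le ha ha' ht hd q j).trans
    (mul_le_mul_of_nonneg_right (hk₀ q (hk.trans hq)) ht)

/-- The periods of a point of the open ball do not all vanish. -/
theorem per_ne_zero (hn : 1 ≤ n) (hρ : 0 < ρ) (hρ1 : ρ < 1) (ha : ∀ i, ‖a i‖ ≤ ρ) :
    per a ≠ 0 := by
  intro h0
  have : NeZero n := ⟨by omega⟩
  have hp := (Fact.out : p.Prime).one_lt
  have hsmall : Tendsto (fun k : ℕ => (p : ℝ) * ρ ^ p ^ (k * n)) atTop (𝓝 0) := by
    have h := ((tendsto_pow_atTop_nhds_zero_of_lt_one hρ.le hρ1).comp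
      ((tendsto_pow_atTop_atTop_of_one_lt hp).comp
        (tendsto_id.atTop_mul_const' (show 0 < n by omega)))).const_mul (p : ℝ)
    simpa [Function.comp_def] using h
  obtain ⟨k₀, hk₀⟩ := eventually_atTop.mp (hsmall.eventually (eventually_lt_nhds one_pos))
  set S : ℕ → ℝ := fun k => ⨆ j : Fin n, ‖approxPer a k j‖ with hS
  have hle : ∀ k (j : Fin n), ‖approxPer a k j‖ ≤ S k := fun k j =>
    le_ciSup (Set.finite_range (fun j : Fin n => ‖approxPer a k j‖)).bddAbove j
  have hstep : ∀ k ≥ k₀, ∀ j : Fin n,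
      ‖approxPer a (k + 1) j‖ ≤ S k ∧
      ‖approxPer a (k + 1) j - approxPer a k j‖ ≤ (p : ℝ) * ρ ^ p ^ (k * n) * S k := by
    intro k hk j
    have hSk : 0 ≤ S k := (norm_nonneg _).trans (hle k j)
    induction j using Fin.strong_induction_on with
    | _ j ih =>
      have hdiff : ‖approxPer a (k + 1) j - approxPer a k j‖ ≤
          (p : ℝ) * ρ ^ p ^ (k * n) * S k := by
        rw [approxPer_succ_sub, norm_mul, norm_pow, norm_natCast_p]
        refine (mul_le_mul_of_nonneg_left
          (IsUltrametricDist.norm_sum_le_of_forall_le_of_nonneg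
            (C := (p : ℝ) ^ k * ((p : ℝ) * ρ ^ p ^ (k * n) * S k)) (by positivity) fun i _ => ?_)
          (pow_nonneg inv_p_pos.le k)).trans (le_of_eq ?_)
        · split_ifs with hi
          · set m := (k + 1) * n + (j : ℕ) - 1 - i with hm
            have hlo : k * n + j ≤ m := by rw [hm, add_one_mul]; omega
            have hhi : m < (k + 1) * n + j := by
              have : n ≤ (k + 1) * n := Nat.le_mul_of_pos_left n (Nat.succ_pos k)
              omega
            have hb : ‖logCoeff p n a m‖ ≤ (p : ℝ) ^ k * ((p : ℝ) * S k) := by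
              rcases Nat.lt_or_ge m ((k + 1) * n) with hm1 | hm1
              · have e : approxPer a k ⟨m - k * n, by rw [add_one_mul] at hm1; omega⟩ =
                    (p : ℂ_[p]) ^ k * logCoeff p n a m := by
                  rw [approxPer]; congr 2; simp only; omega
                have h := hle k ⟨m - k * n, by rw [add_one_mul] at hm1; omega⟩
                rw [e, norm_mul, norm_pow, norm_natCast_p, inv_pow, inv_mul_le_iff₀ (by positivity)]
                  at h
                refine h.trans (mul_le_mul_of_nonneg_left ?_ (by positivity))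
                exact le_mul_of_one_le_left hSk one_le_p
              · have hj' : m - (k + 1) * n < n := by have := j.isLt; omega
                have h := (ih ⟨m - (k + 1) * n, hj'⟩ (show m - (k + 1) * n < (j : ℕ) by omega)).1
                rw [approxPer, show (k + 1) * n + (m - (k + 1) * n) = m by omega, norm_mul,
                  norm_pow, norm_natCast_p, inv_pow, inv_mul_le_iff₀ (by positivity)] at h
                refine h.trans (le_of_eq ?_)
                ring
            rw [norm_mul, norm_pow, coord, dif_pos hi]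
            calc ‖logCoeff p n a m‖ * ‖a ⟨i, hi⟩‖ ^ p ^ m
                ≤ ((p : ℝ) ^ k * ((p : ℝ) * S k)) * ρ ^ p ^ (k * n) := by
                  refine mul_le_mul hb ?_ (by positivity) (by positivity)
                  exact (pow_le_pow_left₀ (norm_nonneg _) (ha _) _).trans (pow_le_pow_of_le_one
                    hρ.le hρ1.le (Nat.pow_le_pow_right (by omega) (by omega)))
              _ = _ := by ring
          · rw [norm_zero]; positivity
        · rw [← mul_assoc, ← mul_pow, inv_mul_cancel₀ (by positivity), one_pow, one_mul]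
      refine ⟨?_, hdiff⟩
      rw [show approxPer a (k + 1) j =
        (approxPer a (k + 1) j - approxPer a k j) + approxPer a k j by ring]
      exact (IsUltrametricDist.norm_add_le_max _ _).trans
        (max_le (hdiff.trans (mul_le_of_le_one_left hSk (hk₀ k hk).le)) (hle k j))
  have hconst : ∀ k ≥ k₀, S k₀ ≤ S k := by
    intro k hk
    induction k, hk using Nat.le_induction with
    | base => rfl
    | succ k hk ih =>
      refine ih.trans ?_
      obtain ⟨j, hj⟩ := exists_eq_ciSup_of_finite (f := fun j : Fin n => ‖approxPer a k j‖)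
      rcases eq_or_lt_of_le ((norm_nonneg (approxPer a k j)).trans (le_of_eq hj)) with h | h
      · exact le_of_eq_of_le h.symm ((norm_nonneg _).trans (hle (k + 1) ⟨0, by omega⟩))
      · refine le_trans (le_of_eq ?_) (hle (k + 1) j)
        have hlt : ‖approxPer a (k + 1) j - approxPer a k j‖ < ‖approxPer a k j‖ := by
          rw [hj]
          exact lt_of_le_of_lt (hstep k hk j).2 (mul_lt_of_lt_one_left h (hk₀ k hk))
        rw [show approxPer a (k + 1) j =
          (approxPer a (k + 1) j - approxPer a k j) + approxPer a k j by ring,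
          IsUltrametricDist.norm_add_eq_max_of_norm_ne_norm hlt.ne, max_eq_right hlt.le]
        exact hj.symm
  have hS0 : S k₀ ≤ 0 := by
    refine le_of_forall_pos_le_add fun ε hε => ?_
    have h2 : ∀ j : Fin n, ∀ᶠ k in atTop, ‖approxPer a k j‖ ≤ ε := fun j => by
      have h := tendsto_per hn hρ hρ1 ha j
      rw [h0] at h
      have h' := h.norm
      rw [Pi.zero_apply, norm_zero] at h'
      exact h'.eventually (eventually_le_nhds hε)
    obtain ⟨k, hk1, hk2⟩ := ((eventually_all.mpr h2).and (eventually_ge_atTop k₀)).exists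
    linarith [hconst k hk2, ciSup_le (f := fun j : Fin n => ‖approxPer a k j‖) hk1]
  have hzero : ∀ k ≥ k₀, ∀ j : Fin n, approxPer a k j = 0 := by
    intro k hk
    induction k, hk using Nat.le_induction with
    | base => exact fun j => norm_le_zero_iff.mp ((hle k₀ j).trans hS0)
    | succ k hk ih =>
      intro j
      refine norm_le_zero_iff.mp ((hstep k hk j).1.trans (le_of_eq ?_))
      simp [hS, ih]
  have hlarge : ∀ m ≥ k₀ * n, logCoeff p n a m = 0 := by
    intro m hm
    have hk : k₀ ≤ m / n := (Nat.le_div_iff_mul_le (by omega)).mpr hm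
    have h := hzero (m / n) hk ⟨m % n, Nat.mod_lt _ (by omega)⟩
    rw [approxPer, mul_eq_zero] at h
    rcases h with h | h
    · exact absurd (pow_eq_zero_iff'.mp h).1 p_ne_zero
    · rwa [mul_comm, Nat.div_add_mod] at h
  have hdown : ∀ d, ∀ m ≥ k₀ * n - d, logCoeff p n a m = 0 := by
    intro d
    induction d with
    | zero => simpa using hlarge
    | succ d ih =>
      intro m hm
      rcases Nat.lt_or_ge m (k₀ * n - d) with hlt | hge
      · have h := logCoeff_step a (m := m + (n - 1)) (by omega) hn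
        rw [ih (m + (n - 1) + 1) (by omega), mul_zero, Nat.add_sub_cancel,
          Finset.sum_eq_zero fun i _ => ?_] at h
        · simpa using h.symm
        · split_ifs with hi
          · rw [ih _ (by omega), zero_mul]
          · rfl
      · exact ih m hge
  have := hdown (k₀ * n) 0 (by omega)
  rw [logCoeff] at this
  exact one_ne_zero this

/-- A function which near `a` is linear up to a quadratic error. -/
def D2 (a : Fin (n - 1) → ℂ_[p]) (f : (Fin (n - 1) → ℂ_[p]) → ℂ_[p]) : Prop :=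
  ∃ (T : (Fin (n - 1) → ℂ_[p]) →ₗ[ℂ_[p]] ℂ_[p]) (M : ℝ), 0 ≤ M ∧
    ∀ a' : Fin (n - 1) → ℂ_[p], (∀ i, ‖a' i‖ ≤ 1) → ∀ t : ℝ, 0 ≤ t →
      (∀ i, ‖a' i - a i‖ ≤ t) →
        ‖f a' - f a‖ ≤ M * t ∧ ‖f a' - f a - T (a' - a)‖ ≤ M * t ^ 2

lemma d2_const (c : ℂ_[p]) : D2 a (fun _ => c) :=
  ⟨0, 0, le_rfl, fun a' _ t _ _ => by simp⟩

lemma d2_coord (i : Fin n) : D2 a (fun b => coord b i) := by
  by_cases hi : (i : ℕ) < n - 1
  · refine ⟨LinearMap.proj ⟨i, hi⟩, 1, zero_le_one, fun a' _ t ht hd => ?_⟩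
    simp only [coord, dif_pos hi, LinearMap.proj_apply, Pi.sub_apply, sub_self, norm_zero, one_mul]
    exact ⟨hd _, sq_nonneg t⟩
  · simp only [coord, dif_neg hi]
    exact d2_const 1

lemma D2.add {f g : (Fin (n - 1) → ℂ_[p]) → ℂ_[p]} (hf : D2 a f) (hg : D2 a g) :
    D2 a (fun b => f b + g b) := by
  obtain ⟨T, M, hM, hT⟩ := hf
  obtain ⟨S, N, hN, hS⟩ := hg
  refine ⟨T + S, max M N, hM.trans (le_max_left _ _), fun a' ha' t ht hd => ?_⟩
  obtain ⟨h1, h2⟩ := hT a' ha' t ht hd
  obtain ⟨h3, h4⟩ := hS a' ha' t ht hd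
  refine ⟨?_, ?_⟩
  · rw [add_sub_add_comm]
    refine (IsUltrametricDist.norm_add_le_max _ _).trans (max_le (h1.trans ?_) (h3.trans ?_))
    · gcongr; exact le_max_left _ _
    · gcongr; exact le_max_right _ _
  · rw [add_sub_add_comm, LinearMap.add_apply, add_sub_add_comm]
    refine (IsUltrametricDist.norm_add_le_max _ _).trans (max_le (h2.trans ?_) (h4.trans ?_))
    · gcongr; exact le_max_left _ _
    · gcongr; exact le_max_right _ _

lemma D2.mul (ha : ∀ i, ‖a i‖ ≤ 1) {f g : (Fin (n - 1) → ℂ_[p]) → ℂ_[p]} (hf : D2 a f)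
    (hg : D2 a g) : D2 a (fun b => f b * g b) := by
  obtain ⟨T, M, hM, hT⟩ := hf
  obtain ⟨S, N, hN, hS⟩ := hg
  refine ⟨g a • T + f a • S, M * ‖g a‖ + N * ‖f a‖ + 2 * (M * N) + 1, by positivity,
    fun a' ha' t ht hd => ?_⟩
  obtain ⟨h1, h2⟩ := hT a' ha' t ht hd
  obtain ⟨h3, h4⟩ := hS a' ha' t ht hd
  have hf' : ‖(f a' - f a) * (g a' - g a)‖ ≤ M * N * t ^ 2 := by
    rw [norm_mul, show M * N * t ^ 2 = (M * t) * (N * t) by ring]
    exact mul_le_mul h1 h3 (norm_nonneg _) (by positivity)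
  refine ⟨?_, ?_⟩
  · -- crude bound, using that both points lie in the unit ball
    have htd : ∀ i, ‖a' i - a i‖ ≤ min t 2 := fun i => le_min (hd i)
      ((norm_sub_le _ _).trans (by linarith [ha' i, ha i]))
    obtain ⟨k1, -⟩ := hT a' ha' (min t 2) (le_min ht zero_le_two) htd
    obtain ⟨k3, -⟩ := hS a' ha' (min t 2) (le_min ht zero_le_two) htd
    rw [show f a' * g a' - f a * g a =
      (f a' - f a) * g a + f a * (g a' - g a) + (f a' - f a) * (g a' - g a) by ring]
    refine (norm_add₃_le).trans ?_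
    rw [norm_mul, norm_mul, norm_mul]
    have e1 : ‖f a' - f a‖ * ‖g a' - g a‖ ≤ 2 * (M * N) * t := by
      refine (mul_le_mul k1 k3 (norm_nonneg _) (by positivity)).trans ?_
      calc M * min t 2 * (N * min t 2) ≤ M * 2 * (N * t) := by
            gcongr
            · exact min_le_right _ _
            · exact min_le_left _ _
        _ = _ := by ring
    nlinarith [mul_le_mul_of_nonneg_right h1 (norm_nonneg (g a)),
      mul_le_mul_of_nonneg_left h3 (norm_nonneg (f a))]
  · rw [show f a' * g a' - f a * g a - (g a • T + f a • S) (a' - a) =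
      (f a' - f a - T (a' - a)) * g a + f a * (g a' - g a - S (a' - a)) +
        (f a' - f a) * (g a' - g a) by
      simp only [LinearMap.add_apply, LinearMap.smul_apply, smul_eq_mul]; ring]
    refine (norm_add₃_le).trans ?_
    rw [norm_mul (f a' - f a - T (a' - a)), norm_mul (f a)]
    nlinarith [mul_le_mul_of_nonneg_right h2 (norm_nonneg (g a)),
      mul_le_mul_of_nonneg_left h4 (norm_nonneg (f a)),
      mul_nonneg (mul_nonneg hM hN) (sq_nonneg t), sq_nonneg t, hf']

lemma d2_logCoeff (ha : ∀ i, ‖a i‖ ≤ 1) : ∀ m, D2 a (fun b => logCoeff p n b m) := by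
  intro m
  induction m using Nat.strong_induction_on with
  | _ m ih =>
    match m with
    | 0 => simp only [logCoeff]; exact d2_const 1
    | m + 1 =>
      simp only [logCoeff_succ]
      refine (d2_const _).mul ha ?_
      suffices ∀ s : Finset (Fin n), D2 a (fun b => ∑ i ∈ s,
          if (i : ℕ) ≤ m then logCoeff p n b (m - i) * coord b i ^ (p ^ (m - i)) else 0) from
        this Finset.univ
      intro s
      induction s using Finset.induction_on with
      | empty => simp only [Finset.sum_empty]; exact d2_const 0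
      | @insert i s hi hs =>
        simp only [Finset.sum_insert hi]
        refine D2.add ?_ hs
        by_cases him : (i : ℕ) ≤ m
        · simp only [if_pos him]
          refine (ih _ (by omega)).mul ha ?_
          generalize p ^ (m - (i : ℕ)) = e
          induction e with
          | zero => simp only [pow_zero]; exact d2_const 1
          | succ e he => simp only [pow_succ]; exact he.mul ha (d2_coord i)
        · simp only [if_neg him]
          exact d2_const 0

/-- Each approximate period is differentiable at a point of the ball. -/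
theorem d2_approxPer (ha : ∀ i, ‖a i‖ ≤ 1) (k : ℕ) (j : Fin n) :
    D2 a (fun b => approxPer b k j) :=
  (d2_const _).mul ha (d2_logCoeff ha _)

end

end Vale.Agent.P217.CharZero
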