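import Vale.Agent.P217.CharZero.Orbit
import Vale.Agent.P217.CharZero.Period

/-!
P217, h = 0: the logarithm series, and the automorphisms X +_Gamma w X^(p^S) of the special fibre.
-/

namespace Vale.Agent.P217.CharZero

noncomputable section

open Filter Topology

section General

variable {R S : Type*} [CommRing R] [CommRing S]

lemma isComm_map (G : FormalGroup R) [G.IsComm] (e : R →+* S) : (G.map e).IsComm where
  comm := by
    ext1
    conv_lhs => rw [FormalGroup.map_toPowerSeries,
      show (G : MvPowerSeries (Fin 2) R) = (G : MvPowerSeries (Fin 2) R).subst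
        (![MvPowerSeries.X 1, MvPowerSeries.X 0] : Fin 2 → MvPowerSeries (Fin 2) R) from
        FormalGroup.IsComm.comm,
      map_subst_pair e G (by simp) (by simp), MvPowerSeries.map_X, MvPowerSeries.map_X]

/-- The sum of the identity and an endomorphism is an endomorphism. -/
lemma isHom_id_add {G : FormalGroup R} [G.IsComm] {h : PowerSeries R} (hh : IsHom G G h) :
    IsHom G G ((G : MvPowerSeries (Fin 2) R).subst ![PowerSeries.X, h]) := by
  have hpair : MvPowerSeries.HasSubst ![(PowerSeries.X : PowerSeries R), h] :=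
    hasSubst_pair PowerSeries.constantCoeff_X hh.1
  have hsub : ∀ f : MvPowerSeries (Fin 2) R, MvPowerSeries.constantCoeff f = 0 →
      PowerSeries.subst f ((G : MvPowerSeries (Fin 2) R).subst ![PowerSeries.X, h]) =
        (G : MvPowerSeries (Fin 2) R).subst ![f, PowerSeries.subst f h] := by
    intro f hf
    have hf' : PowerSeries.HasSubst f := PowerSeries.HasSubst.of_constantCoeff_zero hf
    rw [PowerSeries.subst_def, MvPowerSeries.subst_comp_subst_apply hpair hf'.const]
    congr 1
    ext i : 1
    fin_cases i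
    · simp [PowerSeries.X, MvPowerSeries.subst_X hf'.const]
    · simp [PowerSeries.subst_def]
  refine ⟨constantCoeff_subst_pair G PowerSeries.constantCoeff_X hh.1, ?_⟩
  rw [hsub _ G.zero_constantCoeff, hh.2, hsub _ (by simp), hsub _ (by simp)]
  set A := PowerSeries.subst (MvPowerSeries.X (0 : Fin 2) : MvPowerSeries (Fin 2) R) h
  set B := PowerSeries.subst (MvPowerSeries.X (1 : Fin 2) : MvPowerSeries (Fin 2) R) h
  have hA : PowerSeries.HasSubst A := PowerSeries.HasSubst.of_constantCoeff_zero
    (PowerSeries.constantCoeff_subst_eq_zero (by simp) _ hh.1)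
  have hB : PowerSeries.HasSubst B := PowerSeries.HasSubst.of_constantCoeff_zero
    (PowerSeries.constantCoeff_subst_eq_zero (by simp) _ hh.1)
  let x : G.Point (Fin 2) := ⟨MvPowerSeries.X 0, PowerSeries.HasSubst.X 0⟩
  let y : G.Point (Fin 2) := ⟨MvPowerSeries.X 1, PowerSeries.HasSubst.X 1⟩
  let a : G.Point (Fin 2) := ⟨A, hA⟩
  let b : G.Point (Fin 2) := ⟨B, hB⟩
  have h' := congrArg Subtype.val (add_add_add_comm x y a b)
  simp only [FormalGroup.add_apply] at h'
  simp only [x, y, a, b] at h'
  rw [subst_pair_X] at h'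
  exact h'

/-- The linear coefficient of a formal sum. -/
lemma coeff_one_subst_pair (G : FormalGroup R) {f g : PowerSeries R}
    (hf : PowerSeries.constantCoeff f = 0) (hg : PowerSeries.constantCoeff g = 0) :
    PowerSeries.coeff 1 ((G : MvPowerSeries (Fin 2) R).subst ![f, g]) =
      PowerSeries.coeff 1 f + PowerSeries.coeff 1 g := by
  classical
  have hord : ∀ F : PowerSeries R, PowerSeries.constantCoeff F = 0 → ∀ k, 2 ≤ k →
      PowerSeries.coeff 1 (F ^ k) = 0 := by
    intro F hF k hk
    obtain ⟨F', rfl⟩ := PowerSeries.X_dvd_iff.mpr hF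
    rw [mul_pow, PowerSeries.coeff_X_pow_mul', if_neg (by omega)]
  have h0 : ∀ F : PowerSeries R, PowerSeries.constantCoeff F = 0 → ∀ k, 1 ≤ k →
      PowerSeries.constantCoeff (F ^ k) = 0 := fun F hF k hk => by
    rw [map_pow, hF, zero_pow (by omega)]
  rw [PowerSeries.coeff, MvPowerSeries.coeff_subst (hasSubst_pair hf hg),
    finsum_eq_finsetSum_of_support_subset (s := {Finsupp.single 0 1, Finsupp.single 1 1})]
  · rw [Finset.sum_insert (by
      rw [Finset.mem_singleton]
      intro h
      have := DFunLike.congr_fun h 0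
      simp at this), Finset.sum_singleton]
    simp [G.lin_coeff_X, G.lin_coeff_Y, Finsupp.prod_fintype, Fin.prod_univ_two, PowerSeries.coeff]
  · intro d hd
    simp only [Finset.coe_insert, Finset.coe_singleton, Set.mem_insert_iff,
      Set.mem_singleton_iff]
    by_contra hc
    push Not at hc
    apply hd
    have hz : d 0 + d 1 ≠ 1 := by
      intro h
      rcases Nat.eq_zero_or_pos (d 0) with h' | h'
      · exact hc.2 (by ext i; fin_cases i <;> simp [h'] <;> omega)
      · exact hc.1 (by ext i; fin_cases i <;> simp <;> omega)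
    simp only [Finsupp.prod_fintype _ _ (fun i => pow_zero _), Fin.prod_univ_two,
      Matrix.cons_val_zero, Matrix.cons_val_one]
    change MvPowerSeries.coeff d (G : MvPowerSeries (Fin 2) R) •
      PowerSeries.coeff 1 (f ^ d 0 * g ^ d 1) = 0
    rw [PowerSeries.coeff_mul, Finset.Nat.sum_antidiagonal_eq_sum_range_succ_mk,
      Finset.sum_range_succ, Finset.sum_range_one]
    simp only [Nat.sub_zero, Nat.sub_self, PowerSeries.coeff_zero_eq_constantCoeff_apply]
    rcases Nat.lt_or_ge (d 0 + d 1) 2 with h | h
    · have e0 : d 0 = 0 := by omega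
      have e1 : d 1 = 0 := by omega
      simp [e0, e1]
    · refine smul_eq_zero_of_right _ ?_
      rcases Nat.eq_zero_or_pos (d 0) with e0 | e0
      · simp [e0, hord g hg (d 1) (by omega)]
      · rcases Nat.eq_zero_or_pos (d 1) with e1 | e1
        · simp [e1, hord f hf (d 0) (by omega)]
        · simp [h0 f hf _ e0, h0 g hg _ e1]

end General

variable {p n : ℕ} [Fact p.Prime]

/-- The Hazewinkel logarithm at a tuple. -/
def logSeries (a : Fin (n - 1) → ℂ_[p]) : PowerSeries ℂ_[p] :=
  haveI := Classical.decPred (fun i : ℕ => ∃ m, i = p ^ m)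
  PowerSeries.mk fun i => if ∃ m, i = p ^ m then logCoeff p n a (Nat.log p i) else 0

lemma coeff_logSeries (a : Fin (n - 1) → ℂ_[p]) (m : ℕ) :
    PowerSeries.coeff (p ^ m) (logSeries a) = logCoeff p n a m := by
  rw [logSeries, PowerSeries.coeff_mk, if_pos ⟨m, rfl⟩,
    Nat.log_pow (Fact.out : p.Prime).one_lt]

lemma coeff_logSeries_zero (a : Fin (n - 1) → ℂ_[p]) {i : ℕ} (hi : ∀ m, i ≠ p ^ m) :
    PowerSeries.coeff i (logSeries a) = 0 := by
  rw [logSeries, PowerSeries.coeff_mk, if_neg (fun ⟨m, hm⟩ => hi m hm)]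

lemma isLogSeries (a : Fin (n - 1) → ℂ_[p]) : IsLogSeries p n a (logSeries a) :=
  ⟨coeff_logSeries a, fun _ hi => coeff_logSeries_zero a hi⟩

lemma constantCoeff_logSeries (a : Fin (n - 1) → ℂ_[p]) :
    PowerSeries.constantCoeff (logSeries a) = 0 := by
  rw [← PowerSeries.coeff_zero_eq_constantCoeff_apply]
  exact coeff_logSeries_zero a fun m => (pow_pos (Fact.out : p.Prime).pos m).ne

lemma coeff_one_logSeries (a : Fin (n - 1) → ℂ_[p]) :
    PowerSeries.coeff 1 (logSeries a) = 1 := by
  have := coeff_logSeries a 0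
  rw [pow_zero] at this
  rw [this, logCoeff]

lemma logSeries_injective (a : Fin (n - 1) → ℂ_[p]) {σ : Type*} {A B : MvPowerSeries σ ℂ_[p]}
    (hA : MvPowerSeries.constantCoeff A = 0) (hB : MvPowerSeries.constantCoeff B = 0)
    (h : PowerSeries.subst A (logSeries a) = PowerSeries.subst B (logSeries a)) : A = B := by
  have hu : IsUnit (PowerSeries.coeff 1 (logSeries a)) := by rw [coeff_one_logSeries]; exact isUnit_one
  set g := PowerSeries.substInvOfIsUnit (logSeries a) hu with hg
  have hl : PowerSeries.subst (logSeries a) g = PowerSeries.X :=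
    PowerSeries.subst_substInvOfIsUnit_left _ (constantCoeff_logSeries a) hu
  have hf : PowerSeries.HasSubst (logSeries a) :=
    PowerSeries.HasSubst.of_constantCoeff_zero' (constantCoeff_logSeries a)
  have e : ∀ A : MvPowerSeries σ ℂ_[p], MvPowerSeries.constantCoeff A = 0 →
      PowerSeries.subst (PowerSeries.subst A (logSeries a)) g = A := fun A hA => by
    have hA' := PowerSeries.HasSubst.of_constantCoeff_zero hA
    rw [← PowerSeries.subst_comp_subst_apply hf hA', hl, PowerSeries.subst_X hA']
  rw [← e A hA, ← e B hB, h]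

/-- The law at the centre of the disc. -/
def centre (F : FormalGroup (E p n)) : FormalGroup (W p n) :=
  F.map (MvPowerSeries.constantCoeff : E p n →+* W p n)

lemma centre_map_res (F : FormalGroup (E p n)) :
    (centre F).map (WittVector.constantCoeff : W p n →+* K p n) = F.map (res p n) := by
  ext d
  simp [centre, res]

lemma logCoeff_centre (hn : 1 ≤ n) : ∀ m, ¬ n ∣ m → logCoeff p n (0 : Fin (n - 1) → ℂ_[p]) m = 0 := by
  intro m
  induction m using Nat.strong_induction_on with
  | _ m ih =>
    intro hm
    match m with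
    | 0 => exact absurd (dvd_zero n) hm
    | m + 1 =>
      rw [logCoeff_succ]
      refine mul_eq_zero_of_right _ (Finset.sum_eq_zero fun i _ => ?_)
      split_ifs with him
      · by_cases hi : (i : ℕ) < n - 1
        · rw [coord, dif_pos hi, Pi.zero_apply,
            zero_pow (pow_ne_zero _ (Fact.out : p.Prime).ne_zero), mul_zero]
        · have hin : (i : ℕ) = n - 1 := by omega
          rw [ih _ (by omega), zero_mul]
          intro hd
          apply hm
          have := dvd_add hd (dvd_refl n)
          rwa [show m - (i : ℕ) + n = m + 1 by omega] at this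
      · rfl

/-- Multiplication by a root of unity of order dividing p^n - 1, at the centre. -/
theorem isHom_scale {F : FormalGroup (E p n)} (hF : IsNice p n F) (hn : 1 ≤ n)
    {κ : W p n →+* ℂ_[p]} (hinj : Function.Injective κ) {ζ : W p n} (hζ : ζ ^ (p ^ n) = ζ) :
    IsHom (centre F) (centre F) (PowerSeries.C ζ * PowerSeries.X) := by
  set x : E p n →+* ℂ_[p] := κ.comp MvPowerSeries.constantCoeff with hx
  have hx0 : (fun i => x (u p n i)) = 0 := by
    funext i
    simp [hx, u]
  set f := logSeries (0 : Fin (n - 1) → ℂ_[p]) with hf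
  have hlog := hF.log ℂ_[p] x f (by rw [hx0]; exact isLogSeries 0)
  have hG : (centre F).map κ = F.map x := by
    ext d; simp [centre, hx]
  have hpow : ∀ m, n ∣ m → κ ζ ^ p ^ m = κ ζ := by
    intro m hm
    obtain ⟨q, rfl⟩ := hm
    induction q with
    | zero => simp
    | succ q ih => rw [Nat.mul_succ, pow_add, pow_mul, ih, ← map_pow, hζ]
  have hscale : PowerSeries.subst (PowerSeries.C (κ ζ) * PowerSeries.X) f =
      PowerSeries.C (κ ζ) * f := by
    rw [← PowerSeries.smul_eq_C_mul, ← PowerSeries.rescale_eq_subst]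
    ext i
    rw [PowerSeries.coeff_rescale, PowerSeries.coeff_C_mul]
    by_cases hi : ∃ m, i = p ^ m
    · obtain ⟨m, rfl⟩ := hi
      rw [hf, coeff_logSeries]
      by_cases hnm : n ∣ m
      · rw [hpow m hnm]
      · rw [logCoeff_centre hn m hnm, mul_zero, mul_zero]
    · push Not at hi
      rw [hf, coeff_logSeries_zero _ hi, mul_zero, mul_zero]
  have hb : PowerSeries.constantCoeff (PowerSeries.C (κ ζ) * PowerSeries.X) = 0 := by simp
  have hb' : PowerSeries.HasSubst (PowerSeries.C (κ ζ) * PowerSeries.X) :=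
    PowerSeries.HasSubst.of_constantCoeff_zero' hb
  have hB : ∀ f' : MvPowerSeries (Fin 2) ℂ_[p], MvPowerSeries.constantCoeff f' = 0 →
      PowerSeries.subst f' (PowerSeries.C (κ ζ) * PowerSeries.X) =
        MvPowerSeries.C (κ ζ) * f' := fun f' hf' => by
    have h := PowerSeries.HasSubst.of_constantCoeff_zero hf'
    rw [PowerSeries.subst_mul h, PowerSeries.subst_C, PowerSeries.subst_X h]
  have hkey : IsHom (F.map x) (F.map x) (PowerSeries.C (κ ζ) * PowerSeries.X) := by
    refine ⟨hb, ?_⟩
    set G : MvPowerSeries (Fin 2) ℂ_[p] := ((F.map x : FormalGroup ℂ_[p]) : MvPowerSeries (Fin 2) ℂ_[p])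
      with hGdef
    have hG0 : MvPowerSeries.constantCoeff G = 0 := (F.map x).zero_constantCoeff
    rw [hB _ hG0, hB _ (by simp), hB _ (by simp)]
    set X' := MvPowerSeries.C (κ ζ) * (MvPowerSeries.X 0 : MvPowerSeries (Fin 2) ℂ_[p])
    set Y' := MvPowerSeries.C (κ ζ) * (MvPowerSeries.X 1 : MvPowerSeries (Fin 2) ℂ_[p])
    have hX0 : MvPowerSeries.constantCoeff X' = 0 := by simp [X']
    have hY0 : MvPowerSeries.constantCoeff Y' = 0 := by simp [Y']
    refine logSeries_injective (0 : Fin (n - 1) → ℂ_[p]) (by simp [hG0]) (constantCoeff_subst_pair _ hX0 hY0) ?_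
    have e : ∀ v : MvPowerSeries (Fin 2) ℂ_[p], MvPowerSeries.constantCoeff v = 0 →
        PowerSeries.subst (MvPowerSeries.C (κ ζ) * v) f =
          MvPowerSeries.C (κ ζ) * PowerSeries.subst v f := fun v hv => by
      have h := PowerSeries.HasSubst.of_constantCoeff_zero hv
      rw [← hB v hv, ← PowerSeries.subst_comp_subst_apply hb' h, hscale,
        PowerSeries.subst_mul h, PowerSeries.subst_C]
    have hpair := hasSubst_pair hX0 hY0
    have h2 : PowerSeries.subst ((F.map x : FormalGroup ℂ_[p]).toPowerSeries.subst ![X', Y']) f =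
        PowerSeries.subst X' f + PowerSeries.subst Y' f := by
      have h3 := congrArg (MvPowerSeries.subst ![X', Y']) hlog
      have hG' := PowerSeries.HasSubst.of_constantCoeff_zero hG0
      rw [PowerSeries.subst, MvPowerSeries.subst_comp_subst_apply hG'.const hpair,
        MvPowerSeries.subst_add hpair, PowerSeries.subst, PowerSeries.subst,
        MvPowerSeries.subst_comp_subst_apply (PowerSeries.HasSubst.X (0 : Fin 2)).const hpair,
        MvPowerSeries.subst_comp_subst_apply (PowerSeries.HasSubst.X (1 : Fin 2)).const hpair,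
        MvPowerSeries.subst_X hpair, MvPowerSeries.subst_X hpair] at h3
      exact h3
    rw [h2, e _ hG0, e _ (by simp), e _ (by simp), hGdef, hlog, mul_add]
  refine ⟨by simp, ?_⟩
  refine (fun h => MvPowerSeries.ext fun d => hinj ?_ :
    ∀ {A B : MvPowerSeries (Fin 2) (W p n)}, MvPowerSeries.map κ A = MvPowerSeries.map κ B → A = B) ?_
  · simpa using congrArg (MvPowerSeries.coeff d) h
  have hsub : PowerSeries.HasSubst
      ((centre F : FormalGroup (W p n)) : MvPowerSeries (Fin 2) (W p n)) :=
    PowerSeries.HasSubst.of_constantCoeff_zero (centre F).zero_constantCoeff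
  have hX : ∀ i : Fin 2, MvPowerSeries.constantCoeff (PowerSeries.subst
      (MvPowerSeries.X i : MvPowerSeries (Fin 2) (W p n))
      (PowerSeries.C ζ * PowerSeries.X)) = 0 := fun i =>
    PowerSeries.constantCoeff_subst_eq_zero (by simp) _ (by simp)
  rw [PowerSeries.map_subst hsub, map_subst_pair κ _ (hX 0) (hX 1),
    PowerSeries.map_subst (PowerSeries.HasSubst.X (0 : Fin 2)),
    PowerSeries.map_subst (PowerSeries.HasSubst.X (1 : Fin 2)), MvPowerSeries.map_X,
    MvPowerSeries.map_X, map_mul, PowerSeries.map_C, PowerSeries.map_X,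
    ← FormalGroup.map_toPowerSeries, hG]
  exact hkey.2

lemma coeff_frobenius_fixed {F : FormalGroup (E p n)} (hF : IsNice p n F) (S : ℕ) :
    (F.map (res p n)).map (iterateFrobenius (K p n) p S) = F.map (res p n) := by
  obtain ⟨L, hL, -⟩ := hF.honda.2
  rw [← hL]
  ext d
  simp only [FormalGroup.map_toPowerSeries, MvPowerSeries.coeff_map, RingHom.comp_apply,
    iterateFrobenius_def]
  rw [← map_pow, ZMod.pow_card_pow]

/-- Raising to the power p^S is an endomorphism of the special fibre. -/
theorem isHom_X_pow {F : FormalGroup (E p n)} (hF : IsNice p n F) (S : ℕ) :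
    IsHom (F.map (res p n)) (F.map (res p n)) (PowerSeries.X ^ p ^ S) := by
  have hp := (Fact.out : p.Prime).ne_zero
  set G := F.map (res p n) with hG
  refine ⟨by rw [map_pow, PowerSeries.constantCoeff_X, zero_pow (pow_ne_zero S hp)], ?_⟩
  have hGs : PowerSeries.HasSubst (G : MvPowerSeries (Fin 2) (K p n)) :=
    PowerSeries.HasSubst.of_constantCoeff_zero G.zero_constantCoeff
  have e : ∀ v : MvPowerSeries (Fin 2) (K p n), PowerSeries.HasSubst v →
      PowerSeries.subst v (PowerSeries.X ^ p ^ S : PowerSeries (K p n)) = v ^ p ^ S := fun v hv => by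
    rw [PowerSeries.subst_pow hv, PowerSeries.subst_X hv]
  rw [e _ hGs, e _ (PowerSeries.HasSubst.X _), e _ (PowerSeries.HasSubst.X _),
    ← MvPowerSeries.map_iterateFrobenius_expand p hp, MvPowerSeries.map_expand,
    ← FormalGroup.map_toPowerSeries, coeff_frobenius_fixed hF, MvPowerSeries.expand,
    MvPowerSeries.substAlgHom_apply]
  congr 1
  ext i : 1
  fin_cases i <;> simp

/-- The series X +_Gamma w X^(p^S). -/
def dirSeries (F : FormalGroup (E p n)) (w : K p n) (S : ℕ) : PowerSeries (K p n) :=
  ((F.map (res p n) : FormalGroup (K p n)) : MvPowerSeries (Fin 2) (K p n)).subst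
    ![PowerSeries.X, PowerSeries.C w * PowerSeries.X ^ p ^ S]

theorem isAut_dirSeries {F : FormalGroup (E p n)} (hF : IsNice p n F) (hn : 1 ≤ n)
    {κ : W p n →+* ℂ_[p]} (hinj : Function.Injective κ) (w : K p n) {S : ℕ} (hS : 1 ≤ S) :
    IsAut p n F (dirSeries F w S) := by
  have := hF.comm
  have := isComm_map F (res p n)
  have hw : (WittVector.teichmuller p w) ^ p ^ n = WittVector.teichmuller p w := by
    rw [← map_pow]
    congr 1
    have := Fintype.ofFinite (K p n)
    have h := FiniteField.pow_card w
    rwa [← Nat.card_eq_fintype_card, GaloisField.card p n (by omega)] at h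
  have h1 : IsHom (F.map (res p n)) (F.map (res p n)) (PowerSeries.C w * PowerSeries.X) := by
    have h := (isHom_scale hF hn hinj hw).map (WittVector.constantCoeff : W p n →+* K p n)
    rw [centre_map_res, map_mul, PowerSeries.map_C, PowerSeries.map_X] at h
    rwa [show WittVector.constantCoeff (WittVector.teichmuller p w) = w from
      WittVector.teichmuller_coeff_zero p w] at h
  have hX0 : PowerSeries.constantCoeff ((PowerSeries.X : PowerSeries (K p n)) ^ p ^ S) = 0 := by
    rw [map_pow, PowerSeries.constantCoeff_X, zero_pow (pow_ne_zero S (Fact.out : p.Prime).ne_zero)]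
  have h2 := (isHom_X_pow hF S).comp h1
  rw [PowerSeries.subst_mul (PowerSeries.HasSubst.of_constantCoeff_zero' hX0),
    PowerSeries.subst_C, PowerSeries.subst_X (PowerSeries.HasSubst.of_constantCoeff_zero' hX0)]
    at h2
  refine ⟨isHom_id_add h2, ?_⟩
  rw [dirSeries, coeff_one_subst_pair (f := (PowerSeries.X : PowerSeries (K p n)))
      (g := PowerSeries.C w * PowerSeries.X ^ p ^ S) _ PowerSeries.constantCoeff_X h2.1,
    PowerSeries.coeff_one_X, PowerSeries.coeff_C_mul_X_pow, if_neg]
  · simp
  · exact (Nat.one_lt_pow (by omega) (Fact.out : p.Prime).one_lt).ne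

end

end Vale.Agent.P217.CharZero
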