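import Vale.Agent.P217.Iface

/-!
P217, h = 0: Gauss bounds for power series with coefficients mapped to `ℂ_[p]`, and a contraction
lemma for iterated p-th powers.
-/

namespace Vale.Agent.P217.CharZero

noncomputable section

open MvPowerSeries Filter Topology

variable {p : ℕ} [Fact p.Prime]

lemma norm_natCast_p : ‖(p : ℂ_[p])‖ = (p : ℝ)⁻¹ := by
  have h := PadicComplex.norm_extends' p (p : ℚ_[p])
  rw [Padic.norm_p] at h
  simpa using h

lemma p_ne_zero : (p : ℂ_[p]) ≠ 0 := fun h => by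
  have := norm_natCast_p (p := p)
  rw [h, norm_zero] at this
  exact (inv_ne_zero (Nat.cast_ne_zero.mpr (Fact.out : p.Prime).ne_zero)) this.symm

lemma norm_natCast_le (m : ℕ) : ‖(m : ℂ_[p])‖ ≤ 1 := IsUltrametricDist.norm_natCast_le_one _ m

lemma norm_choose_mid {l : ℕ} (hl : 0 < l) (hl' : l < p) :
    ‖(p.choose l : ℂ_[p])‖ ≤ (p : ℝ)⁻¹ := by
  obtain ⟨m, hm⟩ := (Fact.out : p.Prime).dvd_choose_self hl.ne' hl'
  rw [hm, Nat.cast_mul, norm_mul, norm_natCast_p]
  exact mul_le_of_le_one_right (by positivity) (norm_natCast_le m)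

lemma inv_p_lt_one : (p : ℝ)⁻¹ < 1 :=
  inv_lt_one_of_one_lt₀ (by exact_mod_cast (Fact.out : p.Prime).one_lt)

lemma inv_p_pos : 0 < (p : ℝ)⁻¹ := inv_pos.mpr (by exact_mod_cast (Fact.out : p.Prime).pos)

/-- The bound after one more p-th power. -/
def contr (p : ℕ) (c : ℝ) : ℝ := max ((p : ℝ)⁻¹ * c) (c ^ p)

/-- Iterating `contr` decreases geometrically with ratio 1/p. -/
theorem contr_iterate {c : ℝ} (hc0 : 0 ≤ c) (hc1 : c < 1) :
    (∀ l, 0 ≤ (contr p)^[l] c ∧ (contr p)^[l] c ≤ c) ∧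
    ∃ C : ℝ, 0 ≤ C ∧ ∀ l, (contr p)^[l] c ≤ C * (p : ℝ)⁻¹ ^ l := by
  have hp : 2 ≤ p := (Fact.out : p.Prime).two_le
  set d : ℕ → ℝ := fun l => (contr p)^[l] c with hd
  have hsucc : ∀ l, d (l + 1) = max ((p : ℝ)⁻¹ * d l) (d l ^ p) := fun l => by
    simp only [hd, Function.iterate_succ_apply', contr]
  set θ := max (p : ℝ)⁻¹ c with hθ
  have hθ1 : θ < 1 := max_lt inv_p_lt_one hc1
  have hθ0 : 0 ≤ θ := le_trans hc0 (le_max_right _ _)
  have hgeo : ∀ l, 0 ≤ d l ∧ d l ≤ θ ^ l * c := by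
    intro l
    induction l with
    | zero => simp [hd, hc0]
    | succ l ih =>
      rw [hsucc]
      refine ⟨le_trans (mul_nonneg inv_p_pos.le ih.1) (le_max_left _ _), max_le ?_ ?_⟩
      · rw [pow_succ', mul_assoc]
        exact mul_le_mul (le_max_left _ _) ih.2 ih.1 hθ0
      · have hlc : d l ≤ c :=
          ih.2.trans (mul_le_of_le_one_left hc0 (pow_le_one₀ hθ0 hθ1.le))
        obtain ⟨q, hq⟩ : ∃ q, p = q + 1 + 1 := ⟨p - 2, by omega⟩
        have h0 := ih.1
        calc d l ^ p = d l ^ q * d l * d l := by rw [hq, pow_succ, pow_succ]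
          _ ≤ 1 * θ * (θ ^ l * c) := by
              gcongr
              · exact pow_le_one₀ ih.1 (hlc.trans hc1.le)
              · exact hlc.trans (le_max_right _ _)
              · exact ih.2
          _ = θ ^ (l + 1) * c := by rw [one_mul, pow_succ']; ring
  refine ⟨fun l => ⟨(hgeo l).1, (hgeo l).2.trans
    (mul_le_of_le_one_left hc0 (pow_le_one₀ hθ0 hθ1.le))⟩, ?_⟩
  obtain ⟨L, hL⟩ : ∃ L, θ ^ L * c ≤ (p : ℝ)⁻¹ := by
    obtain ⟨L, hL⟩ := exists_pow_lt_of_lt_one (inv_p_pos (p := p)) hθ1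
    exact ⟨L, le_trans (mul_le_of_le_one_right (pow_nonneg hθ0 L) hc1.le) hL.le⟩
  have hstep : ∀ l, L ≤ l → d (l + 1) ≤ (p : ℝ)⁻¹ * d l := by
    intro l hl
    rw [hsucc]
    refine max_le le_rfl ?_
    have hsmall : d l ≤ (p : ℝ)⁻¹ :=
      (hgeo l).2.trans (le_trans (mul_le_mul_of_nonneg_right
        (pow_le_pow_of_le_one hθ0 hθ1.le hl) hc0) hL)
    obtain ⟨q, hq⟩ : ∃ q, p = q + 1 + 1 := ⟨p - 2, by omega⟩
    calc d l ^ p = d l ^ q * d l * d l := by rw [hq, pow_succ, pow_succ]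
      _ ≤ 1 * (p : ℝ)⁻¹ * d l := by
          gcongr
          · exact (hgeo l).1
          · exact (hgeo l).1
          · exact pow_le_one₀ (hgeo l).1 (hsmall.trans inv_p_lt_one.le)
      _ = _ := by rw [one_mul]
  refine ⟨c * (p : ℝ) ^ L, by positivity, fun l => ?_⟩
  have hp0 : (0 : ℝ) < p := by positivity
  rcases le_or_gt l L with hl | hl
  · calc d l ≤ c := (hgeo l).2.trans (mul_le_of_le_one_left hc0 (pow_le_one₀ hθ0 hθ1.le))
      _ ≤ c * ((p : ℝ) ^ L * (p : ℝ)⁻¹ ^ l) := by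
          refine le_mul_of_one_le_right hc0 ?_
          rw [inv_pow, ← div_eq_mul_inv, le_div_iff₀ (by positivity), one_mul]
          exact pow_le_pow_right₀ (by exact_mod_cast (by omega : 1 ≤ p)) hl
      _ = _ := by ring
  · obtain ⟨k, rfl⟩ := Nat.exists_eq_add_of_le hl.le
    clear hl
    calc d (L + k) ≤ c * (p : ℝ)⁻¹ ^ k := by
          induction k with
          | zero =>
            rw [Nat.add_zero, pow_zero, mul_one]
            exact (hgeo L).2.trans (mul_le_of_le_one_left hc0 (pow_le_one₀ hθ0 hθ1.le))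
          | succ k ih =>
            refine le_trans (hstep (L + k) (by omega)) ?_
            rw [pow_succ', mul_left_comm]
            exact mul_le_mul_of_nonneg_left ih inv_p_pos.le
      _ = _ := by
          rw [pow_add, inv_pow (p : ℝ) L]
          field_simp

/-- `(x + e) ^ p` differs from `x ^ p` by at most `contr` of the size of `e`. -/
lemma norm_pow_p_sub {a b : ℂ_[p]} {c : ℝ} (hb : ‖b‖ ≤ 1) (hc : ‖a - b‖ ≤ c) (hc1 : c ≤ 1) :
    ‖a ^ p - b ^ p‖ ≤ contr p c := by
  have hp : p.Prime := Fact.out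
  have hc0 : 0 ≤ c := (norm_nonneg _).trans hc
  have e : a ^ p - b ^ p =
      ∑ l ∈ Finset.range p, (a - b) ^ (l + 1) * b ^ (p - (l + 1)) * (p.choose (l + 1) : ℂ_[p]) := by
    conv_lhs => rw [show a = (a - b) + b by ring, add_pow, Finset.sum_range_succ']
    simp
  rw [e]
  refine IsUltrametricDist.norm_sum_le_of_forall_le_of_nonneg
    (le_trans (mul_nonneg inv_p_pos.le hc0) (le_max_left _ _)) fun l hl => ?_
  rw [Finset.mem_range] at hl
  rw [norm_mul, norm_mul, norm_pow, norm_pow]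
  rcases Nat.lt_or_ge (l + 1) p with h | h
  · refine le_trans ?_ (le_max_left _ _)
    calc ‖a - b‖ ^ (l + 1) * ‖b‖ ^ (p - (l + 1)) * ‖(p.choose (l + 1) : ℂ_[p])‖
        ≤ c * 1 * (p : ℝ)⁻¹ := by
          gcongr
          · exact le_trans (pow_le_of_le_one (norm_nonneg _) (hc.trans hc1) (Nat.succ_ne_zero l)) hc
          · exact pow_le_one₀ (norm_nonneg _) hb
          · exact norm_choose_mid (Nat.succ_pos l) h
      _ = _ := by ring
  · have : l + 1 = p := by omega
    refine le_trans ?_ (le_max_right _ _)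
    rw [this, Nat.sub_self, pow_zero, mul_one, Nat.choose_self, Nat.cast_one, norm_one, mul_one]
    exact pow_le_pow_left₀ (norm_nonneg _) hc p

variable {σ R : Type*} [CommRing R]

/-- The Gauss norm of radius `ρ` of the series with coefficients mapped by `κ` is at most `c`. -/
def GB (κ : R →+* ℂ_[p]) (ρ : ℝ) (f : MvPowerSeries σ R) (c : ℝ) : Prop :=
  ∀ d : σ →₀ ℕ, ‖κ (coeff d f)‖ * ρ ^ d.degree ≤ c

variable {κ : R →+* ℂ_[p]} {ρ : ℝ} {f g : MvPowerSeries σ R} {c c' : ℝ}

lemma GB.nonneg (hρ : 0 ≤ ρ) (h : GB κ ρ f c) : 0 ≤ c :=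
  le_trans (by positivity) (h 0)

lemma GB.mono (h : GB κ ρ f c) (hcc : c ≤ c') : GB κ ρ f c' := fun d => (h d).trans hcc

lemma gb_zero (hc : 0 ≤ c) : GB κ ρ (0 : MvPowerSeries σ R) c := fun d => by simpa using hc

lemma GB.add (hρ : 0 ≤ ρ) (hf : GB κ ρ f c) (hg : GB κ ρ g c) : GB κ ρ (f + g) c := fun d => by
  rw [map_add, map_add]
  refine le_trans (mul_le_mul_of_nonneg_right (IsUltrametricDist.norm_add_le_max _ _)
    (pow_nonneg hρ _)) ?_
  rw [max_mul_of_nonneg _ _ (pow_nonneg hρ _)]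
  exact max_le (hf d) (hg d)

lemma GB.neg (hf : GB κ ρ f c) : GB κ ρ (-f) c := fun d => by
  simpa using hf d

lemma GB.sub (hρ : 0 ≤ ρ) (hf : GB κ ρ f c) (hg : GB κ ρ g c) : GB κ ρ (f - g) c := by
  rw [sub_eq_add_neg]
  exact hf.add hρ hg.neg

lemma gb_sum (hρ : 0 ≤ ρ) {α : Type*} (s : Finset α) {F : α → MvPowerSeries σ R} (hc : 0 ≤ c)
    (h : ∀ i ∈ s, GB κ ρ (F i) c) : GB κ ρ (∑ i ∈ s, F i) c :=
  Finset.sum_induction _ (GB κ ρ · c) (fun _ _ ha hb => ha.add hρ hb) (gb_zero hc) h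

lemma GB.mul (hρ : 0 ≤ ρ) (hf : GB κ ρ f c) (hg : GB κ ρ g c') : GB κ ρ (f * g) (c * c') := by
  classical
  intro d
  rw [coeff_mul, map_sum]
  obtain ⟨i, hi, hle⟩ := IsUltrametricDist.exists_norm_finsetSum_le
    (Finset.HasAntidiagonal.antidiagonal d) (fun x => κ (coeff x.1 f * coeff x.2 g))
  refine le_trans (mul_le_mul_of_nonneg_right hle (pow_nonneg hρ _)) ?_
  have hmem : i ∈ Finset.HasAntidiagonal.antidiagonal d :=
    hi ⟨(0, d), by simp⟩
  rw [Finset.HasAntidiagonal.mem_antidiagonal] at hmem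
  rw [← hmem, map_add, pow_add, map_mul, norm_mul, mul_mul_mul_comm]
  exact mul_le_mul (hf i.1) (hg i.2) (by positivity) (hf.nonneg hρ)

lemma gb_C (hρ : 0 ≤ ρ) {r : R} (h : ‖κ r‖ ≤ c) : GB κ ρ (MvPowerSeries.C r : MvPowerSeries σ R) c := by
  classical
  intro d
  rw [coeff_C]
  split_ifs with hd
  · simpa [hd] using h
  · simpa using (norm_nonneg _).trans h

lemma gb_one (hρ : 0 ≤ ρ) : GB κ ρ (1 : MvPowerSeries σ R) 1 := by
  rw [← map_one (MvPowerSeries.C (σ := σ) (R := R))]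
  exact gb_C hρ (by simp)

lemma gb_X (hρ : 0 ≤ ρ) (i : σ) : GB κ ρ (X i : MvPowerSeries σ R) ρ := by
  classical
  intro d
  rw [coeff_X]
  split_ifs with hd
  · simp [hd]
  · simpa using hρ

lemma GB.pow (hρ : 0 ≤ ρ) (hf : GB κ ρ f c) (m : ℕ) : GB κ ρ (f ^ m) (c ^ m) := by
  induction m with
  | zero => simpa using gb_one hρ
  | succ m ih => rw [pow_succ, pow_succ]; exact ih.mul hρ hf

lemma gb_of_integral (hρ : 0 ≤ ρ) (hρ1 : ρ ≤ 1) (hκ : ∀ r, ‖κ r‖ ≤ 1) (f : MvPowerSeries σ R) :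
    GB κ ρ f 1 :=
  fun _ => mul_le_one₀ (hκ _) (pow_nonneg hρ _) (pow_le_one₀ hρ hρ1)

lemma GB.natCast_mul (hρ : 0 ≤ ρ) (hf : GB κ ρ f c) (m : ℕ) :
    GB κ ρ ((m : MvPowerSeries σ R) * f) (‖(m : ℂ_[p])‖ * c) := by
  rw [← map_natCast (MvPowerSeries.C (σ := σ) (R := R))]
  exact (gb_C hρ (by simp)).mul hρ hf

lemma gb_of_forall_eps (h : ∀ ε > 0, GB κ ρ f (c + ε)) : GB κ ρ f c :=
  fun d => le_of_forall_pos_le_add fun ε hε => h ε hε d

/-- A series without terms of degree below `N` lies in the N-th power of the ideal of variables. -/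
theorem mem_span_X_pow [Finite σ] (N : ℕ) (f : MvPowerSeries σ R)
    (hf : ∀ d : σ →₀ ℕ, d.degree < N → coeff d f = 0) :
    f ∈ Ideal.span (Set.range (X : σ → MvPowerSeries σ R)) ^ N := by
  classical
  have := Fintype.ofFinite σ
  induction N generalizing f with
  | zero => simp
  | succ N ih =>
    set I := Ideal.span (Set.range (X : σ → MvPowerSeries σ R)) with hI
    have key : ∀ s : Finset σ, ∀ g : MvPowerSeries σ R,
        (∀ d : σ →₀ ℕ, (∀ i ∈ s, d i = 0) ∨ d.degree < N + 1 → coeff d g = 0) →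
          g ∈ I ^ (N + 1) := by
      intro s
      induction s using Finset.induction_on with
      | empty =>
        intro g hg
        have : g = 0 := by
          ext d
          simpa using hg d (Or.inl (by simp))
        simp [this]
      | @insert a s ha ih' =>
        intro g hg
        let g0 : MvPowerSeries σ R := fun d => if d a = 0 then coeff d g else 0
        have hc : ∀ d, coeff d g0 = if d a = 0 then coeff d g else 0 := fun d => rfl
        have h1 : g0 ∈ I ^ (N + 1) := by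
          refine ih' g0 fun d hd => ?_
          rw [hc]
          split_ifs with h
          · rcases hd with hd | hd
            · refine hg d (Or.inl fun i hi => ?_)
              rcases Finset.mem_insert.1 hi with rfl | hi
              · exact h
              · exact hd i hi
            · exact hg d (Or.inr hd)
          · rfl
        have h2 : X a ∣ g - g0 := by
          rw [X_dvd_iff]
          intro d hd
          rw [map_sub, hc, if_pos hd, sub_self]
        obtain ⟨q, hq⟩ := h2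
        have hqN : q ∈ I ^ N := by
          refine ih q fun d hd => ?_
          have he : coeff (Finsupp.single a 1 + d) (g - g0) = coeff d q := by
            rw [hq, X, coeff_add_monomial_mul, one_mul]
          have hne : (Finsupp.single a 1 + d : σ →₀ ℕ) a ≠ 0 := by simp
          rw [map_sub, hc, if_neg hne, sub_zero] at he
          rw [← he]
          exact hg _ (Or.inr (by rw [map_add, Finsupp.degree_single]; omega))
        rw [show g = X a * q + g0 by rw [← hq]; ring, pow_succ']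
        refine Ideal.add_mem _ (Ideal.mul_mem_mul (Ideal.subset_span (Set.mem_range_self a)) hqN) ?_
        rwa [← pow_succ']
    refine key Finset.univ f fun d hd => hf d ?_
    rcases hd with hd | hd
    · rw [show d = 0 from Finsupp.ext fun i => hd i (Finset.mem_univ i)]; simp
    · exact hd

/-- Polynomials obey their Gauss bound on the ball. -/
lemma norm_eval₂_le (hρ : 0 ≤ ρ) (P : MvPolynomial σ R) (hP : GB κ ρ (P : MvPowerSeries σ R) c)
    {a : σ → ℂ_[p]} (ha : ∀ i, ‖a i‖ ≤ ρ) : ‖MvPolynomial.eval₂ κ a P‖ ≤ c := by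
  rw [MvPolynomial.eval₂_eq]
  refine IsUltrametricDist.norm_sum_le_of_forall_le_of_nonneg (hP.nonneg hρ) fun d _ => ?_
  rw [norm_mul, norm_prod]
  refine le_trans (mul_le_mul_of_nonneg_left ?_ (norm_nonneg _)) (by simpa using hP d)
  rw [Finsupp.degree_apply, ← Finset.prod_pow_eq_pow_sum]
  exact Finset.prod_le_prod (fun i _ => norm_nonneg _) fun i _ => by
    rw [norm_pow]; exact pow_le_pow_left₀ (norm_nonneg _) (ha i) _

end

end Vale.Agent.P217.CharZero
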