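import Vale.Agent.P217.CharZero.Dir

/-!
P217, h = 0: the periods of a point and of its image are related by an explicit matrix.
-/

namespace Vale.Agent.P217.CharZero

noncomputable section

open Filter Topology

variable {p n : ℕ} [Fact p.Prime]

/-- A series additive for a law, with zero linear term, vanishes in characteristic zero. -/
lemma additive_eq_zero {G : FormalGroup ℂ_[p]} {e : PowerSeries ℂ_[p]}
    (h0 : PowerSeries.constantCoeff e = 0) (h1 : PowerSeries.coeff 1 e = 0)
    (hadd : PowerSeries.subst (G : MvPowerSeries (Fin 2) ℂ_[p]) e =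
      PowerSeries.subst (MvPowerSeries.X (0 : Fin 2) : MvPowerSeries (Fin 2) ℂ_[p]) e +
        PowerSeries.subst (MvPowerSeries.X (1 : Fin 2) : MvPowerSeries (Fin 2) ℂ_[p]) e) :
    e = 0 := by
  have hpair : MvPowerSeries.HasSubst
      ![(PowerSeries.X : PowerSeries ℂ_[p]), PowerSeries.X] :=
    hasSubst_pair PowerSeries.constantCoeff_X PowerSeries.constantCoeff_X
  set D : PowerSeries ℂ_[p] :=
    (G : MvPowerSeries (Fin 2) ℂ_[p]).subst ![PowerSeries.X, PowerSeries.X] with hD
  have hD0 : PowerSeries.constantCoeff D = 0 :=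
    constantCoeff_subst_pair G PowerSeries.constantCoeff_X PowerSeries.constantCoeff_X
  have hD1 : PowerSeries.coeff 1 D = 2 := by
    rw [hD, coeff_one_subst_pair G PowerSeries.constantCoeff_X PowerSeries.constantCoeff_X,
      PowerSeries.coeff_one_X]
    norm_num
  have hsD : PowerSeries.HasSubst D := PowerSeries.HasSubst.of_constantCoeff_zero' hD0
  have key : PowerSeries.subst D e = e + e := by
    have h := congrArg (MvPowerSeries.subst ![(PowerSeries.X : PowerSeries ℂ_[p]), PowerSeries.X])
      hadd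
    rw [PowerSeries.subst, MvPowerSeries.subst_comp_subst_apply
      (PowerSeries.HasSubst.of_constantCoeff_zero G.zero_constantCoeff).const hpair,
      MvPowerSeries.subst_add hpair, PowerSeries.subst, PowerSeries.subst,
      MvPowerSeries.subst_comp_subst_apply (PowerSeries.HasSubst.X (0 : Fin 2)).const hpair,
      MvPowerSeries.subst_comp_subst_apply (PowerSeries.HasSubst.X (1 : Fin 2)).const hpair,
      MvPowerSeries.subst_X hpair, MvPowerSeries.subst_X hpair] at h
    refine h.trans ?_
    congr 1 <;> exact PowerSeries.X_subst e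
  refine PowerSeries.ext fun m => ?_
  induction m using Nat.strong_induction_on with
  | _ m ih =>
    rcases Nat.lt_or_ge m 2 with hm | hm
    · interval_cases m
      · simpa using h0
      · simpa using h1
    · have hk := congrArg (PowerSeries.coeff m) key
      rw [PowerSeries.coeff_subst' hsD, finsum_eq_single _ m, map_add, smul_eq_mul] at hk
      · obtain ⟨D', hD'⟩ := PowerSeries.X_dvd_iff.mpr hD0
        have h2 : PowerSeries.constantCoeff D' = 2 := by
          rw [← hD1, hD', show (1 : ℕ) = 0 + 1 by rfl, PowerSeries.coeff_succ_X_mul,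
            PowerSeries.coeff_zero_eq_constantCoeff_apply]
        rw [hD', mul_pow, PowerSeries.coeff_X_pow_mul', if_pos le_rfl, Nat.sub_self,
          PowerSeries.coeff_zero_eq_constantCoeff_apply, map_pow, h2] at hk
        have hne : (2 : ℂ_[p]) ^ m - 2 ≠ 0 := by
          have h4 : (4 : ℕ) ≤ 2 ^ m := le_trans (by norm_num)
            (Nat.pow_le_pow_right (by norm_num : 0 < 2) hm)
          rw [sub_ne_zero]
          intro h
          have : ((2 ^ m : ℕ) : ℂ_[p]) = ((2 : ℕ) : ℂ_[p]) := by push_cast; exact h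
          have := Nat.cast_injective this
          omega
        rw [map_zero]
        have : PowerSeries.coeff m e * ((2 : ℂ_[p]) ^ m - 2) = 0 := by linear_combination hk
        exact (mul_eq_zero.mp this).resolve_right hne
      · intro d hd
        rcases Nat.lt_or_gt_of_ne hd with hlt | hlt
        · rw [ih d hlt, map_zero, zero_smul]
        · obtain ⟨D', hD'⟩ := PowerSeries.X_dvd_iff.mpr hD0
          rw [hD', mul_pow, PowerSeries.coeff_X_pow_mul', if_neg (by omega), smul_zero]

/-- The logarithm of the image pulls back to a multiple of the logarithm. -/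
lemma log_hom {G G' : FormalGroup ℂ_[p]} {f f' : PowerSeries ℂ_[p]} {ψ : PowerSeries ℂ_[p]}
    (hψ : IsHom G G' ψ) (hf0 : PowerSeries.constantCoeff f = 0)
    (hf1 : PowerSeries.coeff 1 f = 1) (hf0' : PowerSeries.constantCoeff f' = 0)
    (hf1' : PowerSeries.coeff 1 f' = 1)
    (hf : PowerSeries.subst (G : MvPowerSeries (Fin 2) ℂ_[p]) f =
      PowerSeries.subst (MvPowerSeries.X (0 : Fin 2) : MvPowerSeries (Fin 2) ℂ_[p]) f +
        PowerSeries.subst (MvPowerSeries.X (1 : Fin 2) : MvPowerSeries (Fin 2) ℂ_[p]) f)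
    (hf' : PowerSeries.subst (G' : MvPowerSeries (Fin 2) ℂ_[p]) f' =
      PowerSeries.subst (MvPowerSeries.X (0 : Fin 2) : MvPowerSeries (Fin 2) ℂ_[p]) f' +
        PowerSeries.subst (MvPowerSeries.X (1 : Fin 2) : MvPowerSeries (Fin 2) ℂ_[p]) f') :
    PowerSeries.subst ψ f' = PowerSeries.C (PowerSeries.coeff 1 ψ) * f := by
  have hG : PowerSeries.HasSubst (G : MvPowerSeries (Fin 2) ℂ_[p]) :=
    PowerSeries.HasSubst.of_constantCoeff_zero G.zero_constantCoeff
  have hG' : PowerSeries.HasSubst (G' : MvPowerSeries (Fin 2) ℂ_[p]) :=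
    PowerSeries.HasSubst.of_constantCoeff_zero G'.zero_constantCoeff
  set c := PowerSeries.coeff 1 ψ
  set h := PowerSeries.subst ψ f' with hh
  have hh0 : PowerSeries.constantCoeff h = 0 :=
    PowerSeries.constantCoeff_subst_eq_zero (a := (ψ : MvPowerSeries Unit ℂ_[p])) hψ.1 f' hf0'
  rw [← sub_eq_zero]
  refine additive_eq_zero (G := G) (by simp [hh0, hf0]) ?_ ?_
  · rw [map_sub, hh, coeff_one_subst _ _ hψ.1, hf1', PowerSeries.coeff_C_mul, hf1]
    ring
  · have hX : ∀ i : Fin 2, MvPowerSeries.constantCoeff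
        (PowerSeries.subst (MvPowerSeries.X i : MvPowerSeries (Fin 2) ℂ_[p]) ψ) = 0 := fun i =>
      PowerSeries.constantCoeff_subst_eq_zero (by simp) ψ hψ.1
    have hp := hasSubst_pair (hX 0) (hX 1)
    have e := congrArg (MvPowerSeries.subst
      ![PowerSeries.subst (MvPowerSeries.X (0 : Fin 2) : MvPowerSeries (Fin 2) ℂ_[p]) ψ,
        PowerSeries.subst (MvPowerSeries.X (1 : Fin 2) : MvPowerSeries (Fin 2) ℂ_[p]) ψ]) hf'
    rw [PowerSeries.subst_def (G' : MvPowerSeries (Fin 2) ℂ_[p]),
      MvPowerSeries.subst_comp_subst_apply hG'.const hp, MvPowerSeries.subst_add hp,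
      PowerSeries.subst_def (MvPowerSeries.X (0 : Fin 2) : MvPowerSeries (Fin 2) ℂ_[p]) f',
      PowerSeries.subst_def (MvPowerSeries.X (1 : Fin 2) : MvPowerSeries (Fin 2) ℂ_[p]) f',
      MvPowerSeries.subst_comp_subst_apply (PowerSeries.HasSubst.X (0 : Fin 2)).const hp,
      MvPowerSeries.subst_comp_subst_apply (PowerSeries.HasSubst.X (1 : Fin 2)).const hp,
      MvPowerSeries.subst_X hp, MvPowerSeries.subst_X hp] at e
    simp only [← PowerSeries.subst_def, Matrix.cons_val_zero, Matrix.cons_val_one] at e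
    rw [PowerSeries.subst_sub hG, PowerSeries.subst_sub (PowerSeries.HasSubst.X _),
      PowerSeries.subst_sub (PowerSeries.HasSubst.X _), hh,
      PowerSeries.subst_comp_subst_apply hψ.hasSubst hG,
      PowerSeries.subst_comp_subst_apply hψ.hasSubst (PowerSeries.HasSubst.X (0 : Fin 2)),
      PowerSeries.subst_comp_subst_apply hψ.hasSubst (PowerSeries.HasSubst.X (1 : Fin 2)),
      hψ.2, e, PowerSeries.subst_mul hG, PowerSeries.subst_mul (PowerSeries.HasSubst.X _),
      PowerSeries.subst_mul (PowerSeries.HasSubst.X _), PowerSeries.subst_C, PowerSeries.subst_C,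
      PowerSeries.subst_C, hf]
    ring

/-- Integral series congruent modulo the maximal ideal have logarithms with bounded difference. -/
theorem log_congr_bound {a : Fin (n - 1) → ℂ_[p]} (ha : ∀ i, ‖a i‖ ≤ 1)
    {A B : PowerSeries ℂ_[p]} (hA0 : PowerSeries.constantCoeff A = 0)
    (hB0 : PowerSeries.constantCoeff B = 0) (hB : ∀ i, ‖PowerSeries.coeff i B‖ ≤ 1) {c : ℝ}
    (hc0 : 0 ≤ c) (hc1 : c < 1) (hAB : ∀ i, ‖PowerSeries.coeff i (A - B)‖ ≤ c) :
    ∃ M, ∀ i, ‖PowerSeries.coeff i (PowerSeries.subst A (logSeries a)) -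
      PowerSeries.coeff i (PowerSeries.subst B (logSeries a))‖ ≤ M := by
  have hp : p.Prime := Fact.out
  obtain ⟨hb, C', hC0, hC⟩ := contr_iterate (p := p) hc0 hc1
  refine ⟨C', fun i => ?_⟩
  let toGB : ∀ (F : PowerSeries ℂ_[p]) (b : ℝ), (∀ i, ‖PowerSeries.coeff i F‖ ≤ b) →
      GB (RingHom.id ℂ_[p]) 1 (F : MvPowerSeries Unit ℂ_[p]) b := fun F b h d => by
    rw [one_pow, mul_one, RingHom.id_apply]
    have e : d = Finsupp.single () (d ()) := Finsupp.ext fun u => by simp [Subsingleton.elim u ()]
    rw [e]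
    exact h (d ())
  have hpow : ∀ l, GB (RingHom.id ℂ_[p]) 1
      ((A ^ p ^ l - B ^ p ^ l : PowerSeries ℂ_[p]) : MvPowerSeries Unit ℂ_[p])
      ((contr p)^[l] c) := by
    intro l
    induction l with
    | zero => simpa using toGB _ _ hAB
    | succ l ih =>
      rw [pow_succ, pow_mul, pow_mul, Function.iterate_succ_apply']
      set Aq : MvPowerSeries Unit ℂ_[p] := A ^ p ^ l
      set Bq : MvPowerSeries Unit ℂ_[p] := B ^ p ^ l
      have hBq : GB (RingHom.id ℂ_[p]) 1 Bq 1 := by
        simpa [Bq] using (toGB B 1 hB).pow zero_le_one (p ^ l)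
      have hd0 := (hb l).1
      have hd1 : (contr p)^[l] c ≤ 1 := (hb l).2.trans hc1.le
      have e : Aq ^ p - Bq ^ p = ∑ r ∈ Finset.range p,
          (p.choose (r + 1) : MvPowerSeries Unit ℂ_[p]) *
            ((Aq - Bq) ^ (r + 1) * Bq ^ (p - (r + 1))) := by
        conv_lhs => rw [show Aq = (Aq - Bq) + Bq by ring, add_pow, Finset.sum_range_succ']
        simp only [pow_zero, Nat.sub_zero, Nat.choose_zero_right, Nat.cast_one, one_mul, mul_one,
          add_sub_cancel_right]
        exact Finset.sum_congr rfl fun r _ => by ring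
      change GB (RingHom.id ℂ_[p]) 1 (Aq ^ p - Bq ^ p) _
      rw [e]
      refine gb_sum zero_le_one _ (le_trans (mul_nonneg inv_p_pos.le hd0) (le_max_left _ _))
        fun r hr => ?_
      rw [Finset.mem_range] at hr
      have h2 := ((ih.pow zero_le_one (r + 1)).mul zero_le_one
        (hBq.pow zero_le_one (p - (r + 1)))).natCast_mul zero_le_one (p.choose (r + 1))
      rw [one_pow, mul_one] at h2
      refine h2.mono ?_
      rcases Nat.lt_or_ge (r + 1) p with h | h
      · refine le_trans ?_ (le_max_left _ _)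
        exact mul_le_mul (norm_choose_mid (Nat.succ_pos r) h)
          (pow_le_of_le_one hd0 hd1 (Nat.succ_ne_zero r)) (pow_nonneg hd0 _) inv_p_pos.le
      · rw [show r + 1 = p by omega, Nat.choose_self, Nat.cast_one, norm_one, one_mul]
        exact le_max_right _ _
  have hsA : PowerSeries.HasSubst A := PowerSeries.HasSubst.of_constantCoeff_zero' hA0
  have hsB : PowerSeries.HasSubst B := PowerSeries.HasSubst.of_constantCoeff_zero' hB0
  have hfA := PowerSeries.coeff_subst_finite' hsA (logSeries a) i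
  have hfB := PowerSeries.coeff_subst_finite' hsB (logSeries a) i
  rw [PowerSeries.coeff_subst' hsA, PowerSeries.coeff_subst' hsB, ← finsum_sub_distrib hfA hfB]
  rw [finsum_eq_sum _ ((hfA.union hfB).subset (Function.support_sub _ _))]
  refine IsUltrametricDist.norm_sum_le_of_forall_le_of_nonneg hC0 fun d _ => ?_
  simp only [smul_eq_mul, ← mul_sub, norm_mul]
  by_cases hd : ∃ l, d = p ^ l
  · obtain ⟨l, rfl⟩ := hd
    rw [coeff_logSeries]
    have h3 := hpow l (Finsupp.single () i)
    rw [one_pow, mul_one, RingHom.id_apply] at h3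
    calc _ ≤ (p : ℝ) ^ l * (C' * (p : ℝ)⁻¹ ^ l) := by
          refine mul_le_mul (norm_logCoeff ha l) ?_ (norm_nonneg _) (by positivity)
          refine le_trans ?_ (hC l)
          rw [← map_sub]
          exact h3
      _ = C' := by
          rw [inv_pow]
          have : (0 : ℝ) < (p : ℝ) ^ l := pow_pos (by exact_mod_cast hp.pos) l
          field_simp
  · push Not at hd
    rw [coeff_logSeries_zero _ hd, norm_zero, zero_mul]
    exact hC0

variable [NeZero n]

/-- The matrix of the direction (w, s) acting on periods. -/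
def dirMat (κ : W p n →+* ℂ_[p]) (w : K p n) (s : Fin n) : Matrix (Fin n) (Fin n) ℂ_[p] :=
  Matrix.of fun r j => if r = j - s then
    (p : ℂ_[p]) ^ (if s ≤ j then 0 else 1) * κ (WittVector.teichmuller p w) ^ (p ^ (r : ℕ))
  else 0

lemma teichmuller_pow_fixed (hn : 1 ≤ n) (w : K p n) :
    (WittVector.teichmuller p w) ^ p ^ n = WittVector.teichmuller p w := by
  rw [← map_pow]
  congr 1
  have := Fintype.ofFinite (K p n)
  have h := FiniteField.pow_card w
  rwa [← Nat.card_eq_fintype_card, GaloisField.card p n (by omega)] at h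

lemma pow_fixed {R : Type*} [Monoid R] {x : R} (hx : x ^ p ^ n = x) (q r : ℕ) :
    x ^ p ^ (q * n + r) = x ^ p ^ r := by
  induction q with
  | zero => simp
  | succ q ih =>
    rw [add_one_mul, show q * n + n + r = n + (q * n + r) by ring, pow_add, pow_mul, hx, ih]

/-- Periods of the image point times one plus the matrix are a multiple of the periods. -/
theorem period_identity {F : FormalGroup (E p n)} (hF : IsNice p n F)
    {κ : W p n →+* ℂ_[p]} (hκ : ∀ w, ‖κ w‖ ≤ 1) {ρ : ℝ} (hρ : (p : ℝ)⁻¹ < ρ) (hρ1 : ρ < 1)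
    {y : E p n →+* ℂ_[p]} (hy : OnBall κ ρ y) (w : K p n) (s : Fin n) {k₀ : ℕ} (hk₀ : 1 ≤ k₀)
    {φ : E p n →ₐ[W p n] E p n} (hφ : ActsBy p n F (dirSeries F w ((s : ℕ) + k₀ * n)) φ) :
    ∃ c : ℂ_[p], Matrix.vecMul (per fun i => y (φ (u p n i)))
      (1 + (p : ℂ_[p]) ^ k₀ • dirMat κ w s) = c • per (fun i => y (u p n i)) := by
  have hn : 1 ≤ n := Nat.one_le_iff_ne_zero.mpr (NeZero.ne n)
  have hρ0 : 0 < ρ := inv_p_pos.trans hρ
  have hp : p.Prime := Fact.out
  obtain ⟨hg, hres, ψ, hψ, hψg⟩ := hφ
  set S := (s : ℕ) + k₀ * n with hS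
  set τ := κ (WittVector.teichmuller p w) with hτ
  set a := fun i => y (u p n i) with ha
  set a' := fun i => y (φ (u p n i)) with ha'
  set y' := y.comp (φ : E p n →+* E p n) with hy'def
  have hy' : OnBall κ ρ y' := onBall_comp hκ hρ hρ1 hy hres
  have hab : ∀ i, ‖a i‖ ≤ ρ := hy.small
  have hab' : ∀ i, ‖a' i‖ ≤ ρ := hy'.small
  set f := logSeries a with hfdef
  set f' := logSeries a' with hf'def
  set Ψ := PowerSeries.map y ψ with hΨ
  set c := PowerSeries.coeff 1 Ψ with hc
  refine ⟨c, ?_⟩
  have hFy : (F.map (φ : E p n →+* E p n)).map y = F.map y' := by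
    ext d; simp [y']
  have hΨhom : IsHom (F.map y) (F.map y') Ψ := by
    have h := hψ.1.map y
    rwa [hFy] at h
  have hlog := hF.log ℂ_[p] y f (isLogSeries a)
  have hlog' := hF.log ℂ_[p] y' f' (by exact isLogSeries a')
  have hAll : PowerSeries.subst Ψ f' = PowerSeries.C c * f :=
    log_hom hΨhom (constantCoeff_logSeries a) (coeff_one_logSeries a)
      (constantCoeff_logSeries a') (coeff_one_logSeries a') hlog hlog'
  -- the model series
  set hE : PowerSeries (E p n) :=
    PowerSeries.C (MvPowerSeries.C (WittVector.teichmuller p w)) * PowerSeries.X ^ p ^ S with hhE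
  have hpS : p ^ S ≠ 0 := pow_ne_zero S hp.ne_zero
  have hhE0 : PowerSeries.constantCoeff hE = 0 := by
    rw [hhE, map_mul, map_pow, PowerSeries.constantCoeff_X, zero_pow hpS, mul_zero]
  set gE : PowerSeries (E p n) :=
    ((F.map (φ : E p n →+* E p n) : FormalGroup (E p n)) : MvPowerSeries (Fin 2) (E p n)).subst
      ![PowerSeries.X, hE] with hgE
  have hgres : PowerSeries.map (res p n) gE = dirSeries F w S := by
    have e1 : (F.map (φ : E p n →+* E p n)).map (res p n) = F.map (res p n) := by
      ext d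
      simp [res_apply_algHom hres]
    have h := map_subst_pair (res p n) (F.map (φ : E p n →+* E p n))
      (f := (PowerSeries.X : PowerSeries (E p n))) (g := hE) PowerSeries.constantCoeff_X hhE0
    rw [e1] at h
    refine h.trans ?_
    rw [dirSeries]
    congr 1
    have h1 : MvPowerSeries.map (res p n) (PowerSeries.X : PowerSeries (E p n)) =
        (PowerSeries.X : PowerSeries (K p n)) := MvPowerSeries.map_X _ _
    have h2 : MvPowerSeries.map (res p n) hE =
        PowerSeries.C w * PowerSeries.X ^ p ^ S := by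
      show PowerSeries.map (res p n) hE = _
      rw [hhE, map_mul, map_pow, PowerSeries.map_C, PowerSeries.map_X]
      simp [res, WittVector.constantCoeff]
    rw [h1, h2]
  set B := PowerSeries.map y gE with hBdef
  set h' : PowerSeries ℂ_[p] := PowerSeries.C τ * PowerSeries.X ^ p ^ S with hh'
  have hh'0 : PowerSeries.constantCoeff h' = 0 := by
    rw [hh', map_mul, map_pow, PowerSeries.constantCoeff_X, zero_pow hpS, mul_zero]
  have hBeq : B = ((F.map y' : FormalGroup ℂ_[p]) : MvPowerSeries (Fin 2) ℂ_[p]).subst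
      ![PowerSeries.X, h'] := by
    have h := map_subst_pair y (F.map (φ : E p n →+* E p n))
      (f := (PowerSeries.X : PowerSeries (E p n))) (g := hE) PowerSeries.constantCoeff_X hhE0
    rw [hFy] at h
    refine h.trans ?_
    congr 1
    have h1 : MvPowerSeries.map y (PowerSeries.X : PowerSeries (E p n)) =
        (PowerSeries.X : PowerSeries ℂ_[p]) := MvPowerSeries.map_X _ _
    have h2 : MvPowerSeries.map y hE = h' := by
      show PowerSeries.map y hE = _
      rw [hhE, map_mul, map_pow, PowerSeries.map_C, PowerSeries.map_X, hy.coeff_map]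
    rw [h1, h2]
  have hB0 : PowerSeries.constantCoeff B = 0 := by
    rw [hBeq]
    exact constantCoeff_subst_pair _ PowerSeries.constantCoeff_X hh'0
  have hlogB : PowerSeries.subst B f' = f' + PowerSeries.subst h' f' := by
    have hpair : MvPowerSeries.HasSubst ![(PowerSeries.X : PowerSeries ℂ_[p]), h'] :=
      hasSubst_pair PowerSeries.constantCoeff_X hh'0
    have h := congrArg (MvPowerSeries.subst ![(PowerSeries.X : PowerSeries ℂ_[p]), h']) hlog'
    rw [PowerSeries.subst_def, MvPowerSeries.subst_comp_subst_apply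
      (PowerSeries.HasSubst.of_constantCoeff_zero (F.map y').zero_constantCoeff).const hpair,
      MvPowerSeries.subst_add hpair, PowerSeries.subst, PowerSeries.subst,
      MvPowerSeries.subst_comp_subst_apply (PowerSeries.HasSubst.X (0 : Fin 2)).const hpair,
      MvPowerSeries.subst_comp_subst_apply (PowerSeries.HasSubst.X (1 : Fin 2)).const hpair,
      MvPowerSeries.subst_X hpair, MvPowerSeries.subst_X hpair] at h
    rw [hBeq]
    refine h.trans ?_
    congr 1
    exact PowerSeries.X_subst f'
  obtain ⟨M, hM⟩ := log_congr_bound (A := Ψ) (B := B) (c := ρ) (a := a')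
    (fun i => (hab' i).trans hρ1.le) hΨhom.1 hB0
    (fun i => by rw [hBdef, PowerSeries.coeff_map]; exact hy.integral _) hρ0.le hρ1 (fun i => by
      rw [hΨ, hBdef, ← map_sub, PowerSeries.coeff_map]
      refine hy.norm_le hρ0.le hρ1 (gb_of_res hκ hρ hρ1 ?_)
      rw [← PowerSeries.coeff_map, map_sub, map_sub, hψg, hgres, sub_self])
  have hM0 : 0 ≤ M := (norm_nonneg _).trans (hM 0)
  -- coefficients at powers of p
  have hcoef : ∀ m, S ≤ m → ‖c * logCoeff p n a m -
      (logCoeff p n a' m + logCoeff p n a' (m - S) * τ ^ p ^ (m - S))‖ ≤ M := by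
    intro m hm
    have h := hM (p ^ m)
    rw [hAll, hlogB, map_add, PowerSeries.coeff_C_mul, coeff_logSeries, coeff_logSeries,
      PowerSeries.coeff_subst' (PowerSeries.HasSubst.of_constantCoeff_zero' hh'0),
      finsum_eq_single _ (p ^ (m - S))] at h
    · rw [coeff_logSeries, hh', mul_pow, ← map_pow, ← pow_mul, ← pow_add,
        show S + (m - S) = m by omega, PowerSeries.coeff_C_mul, PowerSeries.coeff_X_pow,
        if_pos rfl, mul_one, smul_eq_mul] at h
      exact h
    · intro l hl
      refine smul_eq_zero_of_right _ ?_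
      rw [hh', mul_pow, ← map_pow, ← pow_mul, PowerSeries.coeff_C_mul, PowerSeries.coeff_X_pow,
        if_neg, mul_zero]
      intro h'
      apply hl
      have : p ^ S * l = p ^ S * p ^ (m - S) := by rw [← pow_add, show S + (m - S) = m by omega, h']
      exact Nat.eq_of_mul_eq_mul_left (pow_pos hp.pos S) this
  funext j
  set r := j - s with hr
  set e : ℕ := if s ≤ j then 0 else 1 with he
  have hval : (j : ℕ) + e * n = (r : ℕ) + (s : ℕ) := by
    have hj := j.isLt
    have hs := s.isLt
    rw [hr, Fin.val_sub]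
    by_cases h : s ≤ j
    · rw [he, if_pos h]
      have h' : (s : ℕ) ≤ j := h
      rw [show n - (s : ℕ) + j = ((j : ℕ) - s) + n by omega, Nat.add_mod_right,
        Nat.mod_eq_of_lt (by omega)]
      omega
    · rw [he, if_neg h]
      have h' : (j : ℕ) < s := not_le.mp h
      rw [Nat.mod_eq_of_lt (by omega)]
      omega
  have hτfix : τ ^ p ^ n = τ := by
    rw [hτ, ← map_pow, teichmuller_pow_fixed hn]
  have hlim : Tendsto (fun k => c * approxPer a k j - (approxPer a' k j +
      (p : ℂ_[p]) ^ (k₀ + e) * approxPer a' (k - (k₀ + e)) r * τ ^ p ^ (r : ℕ)))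
      atTop (𝓝 0) := by
    have hb := (tendsto_pow_atTop_nhds_zero_of_lt_one inv_p_pos.le
      (inv_p_lt_one (p := p))).mul_const M
    rw [zero_mul] at hb
    refine squeeze_zero_norm' ?_ hb
    filter_upwards [eventually_ge_atTop (k₀ + e)] with k hk
    obtain ⟨q, rfl⟩ := Nat.exists_eq_add_of_le hk
    rw [Nat.add_sub_cancel_left]
    have e1 : (k₀ + e + q) * n + (j : ℕ) = S + (q * n + (r : ℕ)) := by
      rw [hS, show (k₀ + e + q) * n + (j : ℕ) = k₀ * n + q * n + ((j : ℕ) + e * n) by ring, hval]
      ring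
    have hb2 := hcoef ((k₀ + e + q) * n + j) (by omega)
    rw [show (k₀ + e + q) * n + (j : ℕ) - S = q * n + r by omega, pow_fixed hτfix] at hb2
    calc ‖_‖ = ‖(p : ℂ_[p]) ^ (k₀ + e + q) * (c * logCoeff p n a ((k₀ + e + q) * n + j) -
          (logCoeff p n a' ((k₀ + e + q) * n + j) +
            logCoeff p n a' (q * n + r) * τ ^ p ^ (r : ℕ)))‖ := by
          congr 1
          simp only [approxPer]
          rw [pow_add]
          ring
      _ ≤ _ := by
          rw [norm_mul, norm_pow, norm_natCast_p]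
          exact mul_le_mul_of_nonneg_left hb2 (pow_nonneg inv_p_pos.le _)
  have h1 := tendsto_per (p := p) hn hρ0 hρ1 hab j
  have h2 := tendsto_per (p := p) hn hρ0 hρ1 hab' j
  have h3 := (tendsto_per (p := p) hn hρ0 hρ1 hab' r).comp (tendsto_sub_atTop_nat (k₀ + e))
  have h4 := tendsto_nhds_unique hlim ((h1.const_mul c).sub
    (h2.add ((h3.const_mul ((p : ℂ_[p]) ^ (k₀ + e))).mul_const (τ ^ p ^ (r : ℕ)))))
  rw [eq_comm, sub_eq_zero] at h4
  simp only [Pi.smul_apply, smul_eq_mul, Matrix.vecMul_add, Matrix.vecMul_one, Matrix.vecMul_smul,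
    Pi.add_apply]
  rw [h4]
  congr 1
  rw [Matrix.vecMul, dotProduct, Finset.sum_eq_single r]
  · rw [dirMat, Matrix.of_apply, if_pos rfl, ← he, ← hτ, pow_add]
    ring
  · intro i _ hi
    rw [dirMat, Matrix.of_apply, if_neg hi, mul_zero]
  · simp

end

end Vale.Agent.P217.CharZero
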