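import Vale.Agent.P217.CharZero.Gauss

/-!
P217, h = 0: endomorphisms close to the identity, and the first-order displacement of their
iterated p-th powers.
-/

namespace Vale.Agent.P217.CharZero

noncomputable section

open MvPowerSeries Filter Topology

variable {p n : ℕ} [Fact p.Prime] {κ : W p n →+* ℂ_[p]} {ρ : ℝ}

/-- The polynomial of the terms of degree below `N`, as a series. -/
def low (N : ℕ) (e : E p n) : MvPolynomial (Fin (n - 1)) (W p n) := truncTotal N e

/-- A point on the closed ball of radius `ρ` with coefficient map `κ`. -/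
structure OnBall (κ : W p n →+* ℂ_[p]) (ρ : ℝ) (y : E p n →+* ℂ_[p]) : Prop where
  coeff_map : ∀ w, y (MvPowerSeries.C w) = κ w
  integral : ∀ e, ‖y e‖ ≤ 1
  small : ∀ i, ‖y (u p n i)‖ ≤ ρ

lemma sub_low_mem (N : ℕ) (e : E p n) :
    e - (low N e : E p n) ∈ Ideal.span (Set.range (MvPowerSeries.X :
      Fin (n - 1) → E p n)) ^ N :=
  mem_span_X_pow N _ fun d hd => by
    rw [map_sub, MvPolynomial.coeff_coe, low,
      show MvPolynomial.coeff d (truncTotal N e) = coeff d e from coeff_truncTotal e hd, sub_self]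

lemma OnBall.coe_poly {y : E p n →+* ℂ_[p]} (hy : OnBall κ ρ y)
    (P : MvPolynomial (Fin (n - 1)) (W p n)) :
    y (P : E p n) = MvPolynomial.eval₂ κ (fun i => y (u p n i)) P := by
  have h : y.comp MvPolynomial.coeToMvPowerSeries.ringHom =
      MvPolynomial.eval₂Hom κ (fun i => y (u p n i)) := by
    refine MvPolynomial.ringHom_ext (fun w => ?_) fun i => ?_
    · simp [hy.coeff_map]
    · simp [u]
  exact RingHom.congr_fun h P

lemma OnBall.norm_sub_low {y : E p n →+* ℂ_[p]} (hy : OnBall κ ρ y) (hρ : 0 ≤ ρ) (N : ℕ)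
    (e : E p n) : ‖y (e - (low N e : E p n))‖ ≤ ρ ^ N := by
  let I : ℕ → Ideal (E p n) := fun N =>
    { carrier := {x | ‖y x‖ ≤ ρ ^ N}
      add_mem' := fun {a b} ha hb => by
        simp only [Set.mem_ofPred_eq, map_add] at ha hb ⊢
        exact (IsUltrametricDist.norm_add_le_max _ _).trans (max_le ha hb)
      zero_mem' := by simp [pow_nonneg hρ]
      smul_mem' := fun a b hb => by
        simp only [Set.mem_ofPred_eq, smul_eq_mul, map_mul, norm_mul] at hb ⊢
        exact (mul_le_of_le_one_left (norm_nonneg _) (hy.integral a)).trans hb }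
  suffices ∀ N, Ideal.span (Set.range (MvPowerSeries.X : Fin (n - 1) → E p n)) ^ N ≤ I N from
    this N (sub_low_mem N e)
  intro N
  induction N with
  | zero => intro x _; simpa [I] using hy.integral x
  | succ N ih =>
    rw [pow_succ, Ideal.mul_le]
    intro a ha b hb
    have hb' : b ∈ I 1 := by
      revert b
      change Ideal.span _ ≤ I 1
      rw [Ideal.span_le]
      rintro x ⟨i, rfl⟩
      simpa [I, u] using hy.small i
    have ha' := ih ha
    simp only [I, Submodule.mem_mk, AddSubmonoid.mem_mk, AddSubsemigroup.mem_mk,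
      Set.mem_ofPred_eq, pow_one] at ha' hb' ⊢
    rw [map_mul, norm_mul, pow_succ]
    exact mul_le_mul ha' hb' (norm_nonneg _) (pow_nonneg hρ N)

lemma GB.low {c : ℝ} {e : E p n} (hρ : 0 ≤ ρ) (h : GB κ ρ e c) (N : ℕ) :
    GB κ ρ (low N e : E p n) c := fun d => by
  rw [MvPolynomial.coeff_coe, Vale.Agent.P217.CharZero.low]
  rcases lt_or_ge d.degree N with hd | hd
  · rw [show MvPolynomial.coeff d (truncTotal N e) = coeff d e from coeff_truncTotal e hd]
    exact h d
  · rw [show MvPolynomial.coeff d (truncTotal N e) = 0 from coeff_truncTotal_eq_zero e hd]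
    simpa using h.nonneg hρ

/-- A series obeys its Gauss bound on the ball. -/
theorem OnBall.norm_le {y : E p n →+* ℂ_[p]} (hy : OnBall κ ρ y) (hρ : 0 ≤ ρ) (hρ1 : ρ < 1)
    {e : E p n} {c : ℝ} (h : GB κ ρ e c) : ‖y e‖ ≤ c := by
  refine le_of_forall_pos_le_add fun ε hε => ?_
  obtain ⟨N, hN⟩ := exists_pow_lt_of_lt_one hε hρ1
  rw [show e = (e - (CharZero.low N e : E p n)) + (CharZero.low N e : E p n) by ring, map_add]
  refine (IsUltrametricDist.norm_add_le_max _ _).trans (max_le ?_ ?_)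
  · linarith [hy.norm_sub_low hρ N e, h.nonneg hρ]
  · have := norm_eval₂_le hρ (CharZero.low N e) (h.low hρ N) (a := fun i => y (u p n i)) hy.small
    rw [← hy.coe_poly] at this
    linarith

/-- The endomorphism is within `θ` of the identity for every Gauss bound. -/
def Near (κ : W p n →+* ℂ_[p]) (ρ θ : ℝ) (T : E p n →ₐ[W p n] E p n) : Prop :=
  ∀ e c, GB κ ρ e c → GB κ ρ (T e - e) (θ * c)

/-- `T e` is within `θ * c` of `e`, both bounded by `c`. -/
def Close (κ : W p n →+* ℂ_[p]) (ρ θ : ℝ) (T : E p n →ₐ[W p n] E p n) (e : E p n) (c : ℝ) :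
    Prop :=
  GB κ ρ (T e) c ∧ GB κ ρ e c ∧ GB κ ρ (T e - e) (θ * c)

variable {θ : ℝ} {T : E p n →ₐ[W p n] E p n}

lemma algHom_C (T : E p n →ₐ[W p n] E p n) (w : W p n) :
    T (MvPowerSeries.C w) = MvPowerSeries.C w :=
  T.commutes w

lemma close_C (hρ : 0 ≤ ρ) (hθ : 0 ≤ θ) {w : W p n} {c : ℝ} (h : ‖κ w‖ ≤ c) :
    Close κ ρ θ T (MvPowerSeries.C w) c := by
  rw [Close, algHom_C, sub_self]
  exact ⟨gb_C hρ h, gb_C hρ h, gb_zero (mul_nonneg hθ ((norm_nonneg _).trans h))⟩

lemma Close.mul (hρ : 0 ≤ ρ) {a b : E p n} {ca cb : ℝ} (ha : Close κ ρ θ T a ca)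
    (hb : Close κ ρ θ T b cb) : Close κ ρ θ T (a * b) (ca * cb) := by
  refine ⟨by rw [map_mul]; exact ha.1.mul hρ hb.1, ha.2.1.mul hρ hb.2.1, ?_⟩
  rw [map_mul, show T a * T b - a * b = (T a - a) * T b + a * (T b - b) by ring]
  refine GB.add hρ ?_ ?_
  · exact (ha.2.2.mul hρ hb.1).mono (le_of_eq (mul_assoc _ _ _))
  · exact (ha.2.1.mul hρ hb.2.2).mono (le_of_eq (by ring))

theorem near_of_gens (hκ : ∀ w, ‖κ w‖ ≤ 1) (hρ : 0 ≤ ρ) (hρ1 : ρ < 1) (hθ : 0 ≤ θ)
    (hT : ∀ i, GB κ ρ (T (u p n i)) ρ)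
    (hgen : ∀ i, GB κ ρ (T (u p n i) - u p n i) (θ * ρ)) : Near κ ρ θ T := by
  classical
  have hone : Close κ ρ θ T 1 1 := by
    rw [← map_one (MvPowerSeries.C (σ := Fin (n - 1)) (R := W p n))]
    exact close_C hρ hθ (by simp)
  have hmono : ∀ d : Fin (n - 1) →₀ ℕ,
      Close κ ρ θ T (∏ i, u p n i ^ d i) (ρ ^ d.degree) := by
    intro d
    have hpow : ∀ i m, Close κ ρ θ T (u p n i ^ m) (ρ ^ m) := by
      intro i m
      induction m with
      | zero => simpa using hone
      | succ m ih =>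
        rw [pow_succ, pow_succ]
        exact ih.mul hρ ⟨hT i, gb_X hρ i, hgen i⟩
    have : ∀ s : Finset (Fin (n - 1)),
        Close κ ρ θ T (∏ i ∈ s, u p n i ^ d i) (∏ i ∈ s, ρ ^ d i) := by
      intro s
      induction s using Finset.induction_on with
      | empty => simpa using hone
      | @insert i s hi ih =>
        rw [Finset.prod_insert hi, Finset.prod_insert hi]
        exact (hpow i (d i)).mul hρ ih
    have h2 := this Finset.univ
    rwa [Finset.prod_pow_eq_pow_sum, ← Finsupp.degree_eq_sum] at h2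
  intro e c he
  refine gb_of_forall_eps fun ε hε => ?_
  obtain ⟨N, hN⟩ := exists_pow_lt_of_lt_one hε hρ1
  have hc : 0 ≤ θ * c := mul_nonneg hθ (he.nonneg hρ)
  have hlow : GB κ ρ (T (CharZero.low N e : E p n) - (CharZero.low N e : E p n)) (θ * c) := by
    have hP : (CharZero.low N e : E p n) = ∑ d ∈ (CharZero.low N e).support,
        MvPowerSeries.C ((CharZero.low N e).coeff d) * ∏ i, u p n i ^ d i := by
      conv_lhs => rw [(CharZero.low N e).as_sum, ← MvPolynomial.coeToMvPowerSeries.ringHom_apply,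
        map_sum]
      refine Finset.sum_congr rfl fun d _ => ?_
      rw [MvPolynomial.monomial_eq, map_mul, Finsupp.prod_fintype _ _ (by simp), map_prod]
      simp [u]
    rw [hP, map_sum, ← Finset.sum_sub_distrib]
    refine gb_sum hρ _ hc fun d hd => ?_
    have hC : Close κ ρ θ T (MvPowerSeries.C ((CharZero.low N e).coeff d))
        ‖κ ((CharZero.low N e).coeff d)‖ := close_C hρ hθ le_rfl
    refine (hC.mul hρ (hmono d)).2.2.mono (mul_le_mul_of_nonneg_left ?_ hθ)
    have := he.low hρ N d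
    rwa [MvPolynomial.coeff_coe] at this
  have hrem : GB κ ρ (T (e - (CharZero.low N e : E p n)) - (e - (CharZero.low N e : E p n)))
      (ρ ^ N) := by
    let I : ℕ → Ideal (E p n) := fun N =>
      { carrier := {x | GB κ ρ x (ρ ^ N)}
        add_mem' := fun ha hb => ha.add hρ hb
        zero_mem' := gb_zero (pow_nonneg hρ N)
        smul_mem' := fun a b hb =>
          ((gb_of_integral hρ hρ1.le hκ a).mul hρ hb).mono (le_of_eq (one_mul _)) }
    have hI : ∀ (S : E p n →+* E p n), (∀ i, GB κ ρ (S (u p n i)) ρ) → ∀ N,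
        (Ideal.span (Set.range (MvPowerSeries.X : Fin (n - 1) → E p n)) ^ N).map S ≤ I N := by
      intro S hS N
      induction N with
      | zero => exact fun x _ => (gb_of_integral hρ hρ1.le hκ x).mono (by simp)
      | succ N ih =>
        rw [pow_succ, Ideal.map_mul, Ideal.mul_le]
        intro a ha b hb
        have hb' : b ∈ I 1 := by
          refine (Ideal.map_le_iff_le_comap.mpr (Ideal.span_le.mpr ?_)) hb
          rintro x ⟨i, rfl⟩
          simpa [I, u] using hS i
        have ha' : GB κ ρ a (ρ ^ N) := ih ha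
        have hb'' : GB κ ρ b (ρ ^ 1) := hb'
        exact (ha'.mul hρ hb'').mono (le_of_eq (by simp [pow_succ]))
    refine GB.sub hρ ?_ ?_
    · exact hI T.toRingHom hT N (Ideal.mem_map_of_mem _ (sub_low_mem N e))
    · exact hI (RingHom.id _) (fun i => gb_X hρ i) N
        (by simpa using sub_low_mem N e)
  rw [show T e - e = (T (CharZero.low N e : E p n) - (CharZero.low N e : E p n)) +
    (T (e - (CharZero.low N e : E p n)) - (e - (CharZero.low N e : E p n))) by rw [map_sub]; ring]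
  exact GB.add hρ (hlow.mono (by linarith)) (hrem.mono (by linarith))

lemma Near.image_le (hρ : 0 ≤ ρ) (hT : Near κ ρ θ T) (hθ1 : θ ≤ 1) {e : E p n} {c : ℝ}
    (he : GB κ ρ e c) : GB κ ρ (T e) c := by
  rw [show T e = (T e - e) + e by ring]
  exact ((hT e c he).mono (mul_le_of_le_one_left (he.nonneg hρ) hθ1)).add hρ he

lemma pow_toLinearMap (T : E p n →ₐ[W p n] E p n) (m : ℕ) :
    (T ^ m).toLinearMap = T.toLinearMap ^ m := by
  induction m with
  | zero => rfl
  | succ m ih => rw [pow_succ, pow_succ, ← ih]; rfl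

/-- The p-th power of a near identity map: nearer, with second-order error on displacement. -/
theorem Near.pow_p (hκp : ‖κ (p : W p n)‖ = (p : ℝ)⁻¹) (hρ : 0 ≤ ρ)
    (hθ : 0 ≤ θ) (hθ1 : θ ≤ 1) (hT : Near κ ρ θ T) :
    Near κ ρ (contr p θ) (T ^ p) ∧
    ∀ e c, GB κ ρ e c → GB κ ρ ((T ^ p) e - e - (p : E p n) * (T e - e)) (θ ^ 2 * c) := by
  have hp : p.Prime := Fact.out
  set D : Module.End (W p n) (E p n) := T.toLinearMap - 1 with hD
  have hDapp : ∀ e, D e = T e - e := fun e => by simp [hD]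
  have hDl : ∀ l e c, GB κ ρ e c → GB κ ρ ((D ^ l) e) (θ ^ l * c) := by
    intro l
    induction l with
    | zero => intro e c he; simpa using he
    | succ l ih =>
      intro e c he
      rw [pow_succ', Module.End.mul_apply, hDapp, pow_succ', mul_assoc]
      exact hT _ _ (ih e c he)
  have hexp : ∀ e, (T ^ p) e - e =
      ∑ l ∈ Finset.range p, (p.choose (l + 1) : E p n) * (D ^ (l + 1)) e := by
    intro e
    have h1 : (T ^ p) e = ((D + 1) ^ p) e := by
      rw [hD, sub_add_cancel, ← pow_toLinearMap]; rfl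
    rw [h1, (Commute.one_right D).add_pow, LinearMap.sum_apply, Finset.sum_range_succ']
    have h0 : ((D ^ 0 * 1 ^ (p - 0) * ((p.choose 0 : ℕ) : Module.End (W p n) (E p n))) :
        Module.End (W p n) (E p n)) e = e := by
      simp
    rw [h0, add_sub_cancel_right]
    refine Finset.sum_congr rfl fun l _ => ?_
    rw [one_pow, mul_one, Module.End.mul_apply, Module.End.natCast_apply, map_nsmul, nsmul_eq_mul]
  have hmid : ∀ m : ℕ, p ∣ m → ∀ x : E p n, ∀ c, GB κ ρ x c →
      GB κ ρ ((m : E p n) * x) ((p : ℝ)⁻¹ * c) := by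
    intro m hm x c hx
    obtain ⟨q, rfl⟩ := hm
    rw [← map_natCast (MvPowerSeries.C (σ := Fin (n - 1)) (R := W p n))]
    refine (gb_C hρ ?_).mul hρ hx
    rw [Nat.cast_mul, map_mul, norm_mul, hκp, map_natCast]
    exact mul_le_of_le_one_right inv_p_pos.le (norm_natCast_le q)
  refine ⟨fun e c he => ?_, fun e c he => ?_⟩
  · have hc := he.nonneg hρ
    rw [hexp]
    refine gb_sum hρ _ (mul_nonneg (le_trans (mul_nonneg inv_p_pos.le hθ) (le_max_left _ _)) hc)
      fun l hl => ?_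
    rw [Finset.mem_range] at hl
    rcases Nat.lt_or_ge (l + 1) p with h | h
    · refine (hmid _ (hp.dvd_choose_self (Nat.succ_ne_zero l) h) _ _ (hDl (l + 1) e c he)).mono ?_
      rw [← mul_assoc]
      refine mul_le_mul_of_nonneg_right ?_ hc
      exact le_trans (mul_le_mul_of_nonneg_left (pow_le_of_le_one hθ hθ1 (Nat.succ_ne_zero l))
        inv_p_pos.le) (le_max_left _ _)
    · rw [show l + 1 = p by omega, Nat.choose_self, Nat.cast_one, one_mul]
      exact (hDl p e c he).mono (mul_le_mul_of_nonneg_right (le_max_right _ _) hc)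
  · have hc := he.nonneg hρ
    obtain ⟨q, hq⟩ : ∃ q, p = q + 1 := ⟨p - 1, by have := hp.pos; omega⟩
    rw [hexp, Finset.range_eq_Ico, Finset.sum_eq_sum_Ico_succ_bot hp.pos]
    simp only [zero_add, Nat.choose_one_right, pow_one, hDapp, add_sub_cancel_left]
    refine gb_sum hρ _ (mul_nonneg (sq_nonneg θ) hc) fun l hl => ?_
    rw [Finset.mem_Ico] at hl
    have h2 : θ ^ (l + 1) * c ≤ θ ^ 2 * c :=
      mul_le_mul_of_nonneg_right (pow_le_pow_of_le_one hθ hθ1 (by omega)) hc
    rw [← map_natCast (MvPowerSeries.C (σ := Fin (n - 1)) (R := W p n))]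
    refine ((gb_C hρ (c := 1) ?_).mul hρ (hDl (l + 1) e c he)).mono (by rw [one_mul]; exact h2)
    rw [map_natCast]
    exact norm_natCast_le _

/-- Iterated p-th powers have displacement asymptotic to p^J times a fixed vector. -/
theorem Near.exists_velocity (hκp : ‖κ (p : W p n)‖ = (p : ℝ)⁻¹) (hρ : 0 ≤ ρ) (hρ1 : ρ < 1)
    (hθ : 0 ≤ θ) (hθ1 : θ < 1) (hT : Near κ ρ θ T) {y : E p n →+* ℂ_[p]} (hy : OnBall κ ρ y) :
    ∃ (C : ℝ) (ℓ : Fin (n - 1) → ℂ_[p]),
      (∀ J i, ‖y ((T ^ p ^ J) (u p n i)) - y (u p n i)‖ ≤ C * (p : ℝ)⁻¹ ^ J) ∧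
      Tendsto (fun J i => (y ((T ^ p ^ J) (u p n i)) - y (u p n i)) / (p : ℂ_[p]) ^ J) atTop
        (𝓝 ℓ) := by
  obtain ⟨hb, C, hC0, hC⟩ := contr_iterate (p := p) hθ hθ1
  have hnear : ∀ J, Near κ ρ ((contr p)^[J] θ) (T ^ p ^ J) := by
    intro J
    induction J with
    | zero => simpa using hT
    | succ J ih =>
      rw [Function.iterate_succ_apply', pow_succ, pow_mul]
      exact (ih.pow_p hκp hρ (hb J).1 ((hb J).2.trans hθ1.le)).1
  set δ : ℕ → Fin (n - 1) → ℂ_[p] :=
    fun J i => y ((T ^ p ^ J) (u p n i)) - y (u p n i) with hδ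
  have hδb : ∀ J i, ‖δ J i‖ ≤ C * (p : ℝ)⁻¹ ^ J := by
    intro J i
    simp only [hδ]
    rw [← map_sub]
    refine (hy.norm_le hρ hρ1 (hnear J (u p n i) ρ (gb_X hρ i))).trans ?_
    exact (mul_le_of_le_one_right (hb J).1 hρ1.le).trans (hC J)
  have hdiff : ∀ J i, ‖δ (J + 1) i - (p : ℂ_[p]) * δ J i‖ ≤ (C * (p : ℝ)⁻¹ ^ J) ^ 2 := by
    intro J i
    have h := hy.norm_le hρ hρ1
      (((hnear J).pow_p hκp hρ (hb J).1 ((hb J).2.trans hθ1.le)).2 (u p n i) ρ (gb_X hρ i))
    rw [← pow_mul, ← pow_succ, map_sub, map_sub, map_mul, map_sub, map_natCast] at h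
    refine h.trans ((mul_le_of_le_one_right (sq_nonneg _) hρ1.le).trans ?_)
    exact pow_le_pow_left₀ (hb J).1 (hC J) 2
  have hp0 : (0 : ℝ) < p := by exact_mod_cast (Fact.out : p.Prime).pos
  have hstep : ∀ J, dist (fun i => δ J i / (p : ℂ_[p]) ^ J)
      (fun i => δ (J + 1) i / (p : ℂ_[p]) ^ (J + 1)) ≤ C ^ 2 * p * (p : ℝ)⁻¹ ^ J := by
    intro J
    refine (dist_pi_le_iff (by positivity)).mpr fun i => ?_
    rw [dist_comm, dist_eq_norm]
    have e : δ (J + 1) i / (p : ℂ_[p]) ^ (J + 1) - δ J i / (p : ℂ_[p]) ^ J =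
        (δ (J + 1) i - (p : ℂ_[p]) * δ J i) / (p : ℂ_[p]) ^ (J + 1) := by
      have := p_ne_zero (p := p)
      field_simp
      ring
    rw [e, norm_div, norm_pow, norm_natCast_p, div_le_iff₀ (by positivity)]
    refine (hdiff J i).trans (le_of_eq ?_)
    rw [pow_succ (p : ℝ)⁻¹ J]
    field_simp
  obtain ⟨ℓ, hℓ⟩ := cauchySeq_tendsto_of_complete
    (cauchySeq_of_le_geometric _ _ inv_p_lt_one hstep)
  exact ⟨C, ℓ, hδb, hℓ⟩

end

end Vale.Agent.P217.CharZero
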