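import Vale.Agent.P217.CharZero.Near

/-!
P217, h = 0: first-order expansion at a point, and a series all of whose derivatives vanish at a
point is zero.
-/

namespace Vale.Agent.P217.CharZero

noncomputable section

open Filter Topology

variable {p n : ℕ} [Fact p.Prime] {κ : W p n →+* ℂ_[p]} {ρ : ℝ}

/-- The partial derivative of a series. -/
def dd (i : Fin (n - 1)) (e : E p n) : E p n := MvPowerSeries.pderiv (W p n) i e

lemma poly_first_order (hκ : ∀ w, ‖κ w‖ ≤ 1) {a a' : Fin (n - 1) → ℂ_[p]} {t : ℝ} (ht : 0 ≤ t)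
    (ha : ∀ i, ‖a i‖ ≤ 1) (ha' : ∀ i, ‖a' i‖ ≤ 1) (hd : ∀ i, ‖a' i - a i‖ ≤ t)
    (P : MvPolynomial (Fin (n - 1)) (W p n)) :
    ‖MvPolynomial.eval₂ κ a P‖ ≤ 1 ∧
    ‖MvPolynomial.eval₂ κ a' P - MvPolynomial.eval₂ κ a P‖ ≤ t ∧
    ‖MvPolynomial.eval₂ κ a' P - MvPolynomial.eval₂ κ a P -
      ∑ i, MvPolynomial.eval₂ κ a (MvPolynomial.pderiv i P) * (a' i - a i)‖ ≤ t ^ 2 := by
  classical
  induction P using MvPolynomial.induction_on with
  | C w => simp [hκ w, ht, sq_nonneg]
  | add P Q hP hQ =>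
    refine ⟨?_, ?_, ?_⟩
    · rw [MvPolynomial.eval₂_add]
      exact (IsUltrametricDist.norm_add_le_max _ _).trans (max_le hP.1 hQ.1)
    · rw [MvPolynomial.eval₂_add, MvPolynomial.eval₂_add, add_sub_add_comm]
      exact (IsUltrametricDist.norm_add_le_max _ _).trans (max_le hP.2.1 hQ.2.1)
    · simp only [MvPolynomial.eval₂_add, map_add, add_mul, Finset.sum_add_distrib]
      rw [add_sub_add_comm, add_sub_add_comm]
      exact (IsUltrametricDist.norm_add_le_max _ _).trans (max_le hP.2.2 hQ.2.2)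
  | mul_X P j hP =>
    set A := MvPolynomial.eval₂ κ a P with hA
    set A' := MvPolynomial.eval₂ κ a' P with hA'
    refine ⟨?_, ?_, ?_⟩
    · rw [MvPolynomial.eval₂_mul, MvPolynomial.eval₂_X, norm_mul]
      exact mul_le_one₀ hP.1 (norm_nonneg _) (ha j)
    · rw [MvPolynomial.eval₂_mul, MvPolynomial.eval₂_mul, MvPolynomial.eval₂_X,
        MvPolynomial.eval₂_X, ← hA, ← hA',
        show A' * a' j - A * a j = (A' - A) * a' j + A * (a' j - a j) by ring]
      refine (IsUltrametricDist.norm_add_le_max _ _).trans (max_le ?_ ?_)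
      · rw [norm_mul]
        exact (mul_le_of_le_one_right (norm_nonneg _) (ha' j)).trans hP.2.1
      · rw [norm_mul]
        exact (mul_le_of_le_one_left (norm_nonneg _) hP.1).trans (hd j)
    · have hs : ∑ i, MvPolynomial.eval₂ κ a (MvPolynomial.pderiv i (P * MvPolynomial.X j)) *
          (a' i - a i) = (∑ i, MvPolynomial.eval₂ κ a (MvPolynomial.pderiv i P) * (a' i - a i)) *
            a j + A * (a' j - a j) := by
        simp only [MvPolynomial.pderiv_mul, MvPolynomial.eval₂_add, MvPolynomial.eval₂_mul,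
          MvPolynomial.eval₂_X, add_mul, Finset.sum_add_distrib, Finset.sum_mul]
        congr 1
        · exact Finset.sum_congr rfl fun i _ => by ring
        · rw [Finset.sum_eq_single j]
          · rw [MvPolynomial.pderiv_X_self, MvPolynomial.eval₂_one, mul_one, hA]
          · intro i _ hij
            rw [MvPolynomial.pderiv_X_of_ne (Ne.symm hij), MvPolynomial.eval₂_zero]
            ring
          · simp
      rw [MvPolynomial.eval₂_mul, MvPolynomial.eval₂_mul, MvPolynomial.eval₂_X,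
        MvPolynomial.eval₂_X, hs, ← hA, ← hA',
        show A' * a' j - A * a j - ((∑ i, MvPolynomial.eval₂ κ a (MvPolynomial.pderiv i P) *
          (a' i - a i)) * a j + A * (a' j - a j)) = (A' - A - ∑ i, MvPolynomial.eval₂ κ a
          (MvPolynomial.pderiv i P) * (a' i - a i)) * a j + (A' - A) * (a' j - a j) by ring]
      refine (IsUltrametricDist.norm_add_le_max _ _).trans (max_le ?_ ?_)
      · rw [norm_mul]
        exact (mul_le_of_le_one_right (norm_nonneg _) (ha j)).trans hP.2.2
      · rw [norm_mul, sq]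
        exact mul_le_mul hP.2.1 (hd j) (norm_nonneg _) ht

lemma coeff_low (N : ℕ) (e : E p n) (d : Fin (n - 1) →₀ ℕ) :
    MvPolynomial.coeff d (low N e) = if d.degree < N then MvPowerSeries.coeff d e else 0 :=
  MvPowerSeries.coeff_truncTotal_eq_ite e

lemma dd_coe (i : Fin (n - 1)) (P : MvPolynomial (Fin (n - 1)) (W p n)) :
    dd i (P : E p n) = (MvPolynomial.pderiv i P : E p n) := MvPowerSeries.pderiv_coe P

lemma pderiv_low (i : Fin (n - 1)) (N : ℕ) (g : E p n) :
    MvPolynomial.pderiv i (low (N + 1) g) = low N (dd i g) := by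
  refine MvPolynomial.ext _ _ fun d => ?_
  rw [← MvPolynomial.coeff_coe, ← dd_coe, dd, MvPowerSeries.coeff_pderiv, MvPolynomial.coeff_coe,
    coeff_low, coeff_low, dd, MvPowerSeries.coeff_pderiv, map_add, Finsupp.degree_single]
  split_ifs <;> first | rfl | omega | simp

lemma OnBall.norm_dd_sub_low {y : E p n →+* ℂ_[p]} (hy : OnBall κ ρ y) (hρ : 0 ≤ ρ) (N : ℕ)
    (i : Fin (n - 1)) (e : E p n) : ‖y (dd i (e - (low (N + 1) e : E p n)))‖ ≤ ρ ^ N := by
  have h := hy.norm_sub_low hρ N (dd i e)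
  rw [← pderiv_low, ← dd_coe] at h
  rw [dd, map_sub]
  exact h

/-- First order expansion of a series between two points of the ball. -/
theorem first_order (hκ : ∀ w, ‖κ w‖ ≤ 1) (hρ : 0 ≤ ρ) (hρ1 : ρ < 1) {y y' : E p n →+* ℂ_[p]}
    (hy : OnBall κ ρ y) (hy' : OnBall κ ρ y') {t : ℝ} (ht : 0 ≤ t)
    (hd : ∀ i, ‖y' (u p n i) - y (u p n i)‖ ≤ t) (e : E p n) :
    ‖y' e - y e - ∑ i, y (dd i e) * (y' (u p n i) - y (u p n i))‖ ≤ t ^ 2 := by
  refine le_of_forall_pos_le_add fun ε hε => ?_
  obtain ⟨N, hN⟩ := exists_pow_lt_of_lt_one hε hρ1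
  set P := low (N + 1) e with hP
  set r := e - (P : E p n) with hr
  have hsplit : y' e - y e - ∑ i, y (dd i e) * (y' (u p n i) - y (u p n i)) =
      (y' (P : E p n) - y (P : E p n) -
        ∑ i, y (dd i (P : E p n)) * (y' (u p n i) - y (u p n i))) +
      (y' r - y r - ∑ i, y (dd i r) * (y' (u p n i) - y (u p n i))) := by
    simp only [hr, dd, map_sub, sub_mul, Finset.sum_sub_distrib]
    ring
  rw [hsplit]
  refine (IsUltrametricDist.norm_add_le_max _ _).trans (max_le ?_ ?_)
  · have h := (poly_first_order hκ ht (fun i => hy.integral _) (fun i => hy'.integral _) hd P).2.2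
    simp only [dd_coe, hy.coe_poly, hy'.coe_poly]
    linarith
  · have h1 : ρ ^ (N + 1) ≤ ε :=
      (pow_le_pow_of_le_one hρ hρ1.le (Nat.le_succ N)).trans hN.le
    have hsub : ∀ v w : ℂ_[p], ‖v - w‖ ≤ max ‖v‖ ‖w‖ := fun v w => by
      simpa [sub_eq_add_neg] using IsUltrametricDist.norm_add_le_max v (-w)
    have hone : ε ≤ t ^ 2 + ε := le_add_of_nonneg_left (sq_nonneg t)
    refine le_trans ?_ hone
    refine (hsub _ _).trans (max_le ((hsub _ _).trans (max_le
      ((hy'.norm_sub_low hρ (N + 1) e).trans h1) ((hy.norm_sub_low hρ (N + 1) e).trans h1))) ?_)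
    refine IsUltrametricDist.norm_sum_le_of_forall_le_of_nonneg hε.le fun i _ => ?_
    rw [norm_mul]
    exact (mul_le_of_le_one_right (norm_nonneg _)
      ((hsub _ _).trans (max_le (hy'.integral _) (hy.integral _)))).trans
      ((hy.norm_dd_sub_low hρ N i e).trans hN.le)

/-- The translate of a polynomial to the point `a`. -/
def shiftPoly (κ : W p n →+* ℂ_[p]) (a : Fin (n - 1) → ℂ_[p]) :
    MvPolynomial (Fin (n - 1)) (W p n) →+* MvPolynomial (Fin (n - 1)) ℂ_[p] :=
  MvPolynomial.eval₂Hom (MvPolynomial.C.comp κ) fun i => MvPolynomial.X i + MvPolynomial.C (a i)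

lemma pderiv_shiftPoly (a : Fin (n - 1) → ℂ_[p]) (i : Fin (n - 1))
    (P : MvPolynomial (Fin (n - 1)) (W p n)) :
    MvPolynomial.pderiv i (shiftPoly κ a P) = shiftPoly κ a (MvPolynomial.pderiv i P) := by
  classical
  induction P using MvPolynomial.induction_on with
  | C w => simp [shiftPoly]
  | add P Q hP hQ => simp only [map_add, hP, hQ]
  | mul_X P j hP =>
    simp only [map_mul, MvPolynomial.pderiv_mul, map_add, hP]
    congr 2
    by_cases h : j = i
    · subst h; simp [shiftPoly]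
    · simp [shiftPoly, MvPolynomial.pderiv_X_of_ne h]

lemma gb_eval₂_shift {R : Type*} [CommRing R] (κ' : R →+* ℂ_[p]) (hρ : 0 ≤ ρ)
    {b : Fin (n - 1) → ℂ_[p]} (hb : ∀ i, ‖b i‖ ≤ ρ) (P : MvPolynomial (Fin (n - 1)) R) {c : ℝ}
    (hP : GB κ' ρ (P : MvPowerSeries (Fin (n - 1)) R) c) :
    GB (RingHom.id ℂ_[p]) ρ ((MvPolynomial.eval₂ (MvPolynomial.C.comp κ')
      (fun i => MvPolynomial.X i + MvPolynomial.C (b i)) P :
        MvPolynomial (Fin (n - 1)) ℂ_[p]) : MvPowerSeries (Fin (n - 1)) ℂ_[p]) c := by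
  classical
  rw [MvPolynomial.eval₂_eq', ← MvPolynomial.coeToMvPowerSeries.ringHom_apply, map_sum]
  refine gb_sum hρ _ (hP.nonneg hρ) fun d _ => ?_
  rw [map_mul, map_prod]
  have hX : ∀ i, GB (RingHom.id ℂ_[p]) ρ (MvPolynomial.coeToMvPowerSeries.ringHom
      (MvPolynomial.X i + MvPolynomial.C (b i)) : MvPowerSeries (Fin (n - 1)) ℂ_[p]) ρ := fun i => by
    simp only [MvPolynomial.coeToMvPowerSeries.ringHom_apply, MvPolynomial.coe_add,
      MvPolynomial.coe_X, MvPolynomial.coe_C]
    exact (gb_X hρ i).add hρ (gb_C hρ (hb i))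
  have hC : GB (RingHom.id ℂ_[p]) ρ (MvPolynomial.coeToMvPowerSeries.ringHom
      ((MvPolynomial.C.comp κ') (P.coeff d)) : MvPowerSeries (Fin (n - 1)) ℂ_[p])
      ‖κ' (P.coeff d)‖ := by
    simp only [RingHom.comp_apply, MvPolynomial.coeToMvPowerSeries.ringHom_apply,
      MvPolynomial.coe_C]
    exact gb_C hρ (by simp)
  have hprod : ∀ s : Finset (Fin (n - 1)), GB (RingHom.id ℂ_[p]) ρ (∏ i ∈ s,
      MvPolynomial.coeToMvPowerSeries.ringHom ((MvPolynomial.X i + MvPolynomial.C (b i)) ^ d i) :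
        MvPowerSeries (Fin (n - 1)) ℂ_[p]) (∏ i ∈ s, ρ ^ d i) := by
    intro s
    induction s using Finset.induction_on with
    | empty => simpa using gb_one hρ
    | @insert i s hi ih =>
      rw [Finset.prod_insert hi, Finset.prod_insert hi, map_pow]
      exact ((hX i).pow hρ _).mul hρ ih
  refine (hC.mul hρ (hprod Finset.univ)).mono ?_
  rw [Finset.prod_pow_eq_pow_sum, ← Finsupp.degree_eq_sum]
  have := hP d
  rwa [MvPolynomial.coeff_coe] at this

/-- A series all of whose iterated derivatives vanish at a point of the ball is zero. -/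
theorem eq_zero_of_derivs (hinj : Function.Injective κ) (hκ : ∀ w, ‖κ w‖ ≤ 1) (hρ : 0 < ρ)
    (hρ1 : ρ < 1) {y : E p n →+* ℂ_[p]} (hy : OnBall κ ρ y) (S : Set (E p n))
    (hS : ∀ g ∈ S, y g = 0 ∧ ∀ i, dd i g ∈ S) {f : E p n} (hf : f ∈ S) : f = 0 := by
  classical
  set a := fun i => y (u p n i) with ha
  set L : (Fin (n - 1) →₀ ℕ) → ℕ → E p n → ℂ_[p] :=
    fun d N g => MvPolynomial.coeff d (shiftPoly κ a (low N g)) with hL
  have hlim : ∀ m, ∀ d : Fin (n - 1) →₀ ℕ, d.degree = m → ∀ g ∈ S,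
      Tendsto (fun N => L d N g) atTop (𝓝 0) := by
    intro m
    induction m with
    | zero =>
      intro d hd g hg
      rw [Finsupp.degree_eq_zero_iff] at hd
      subst hd
      have he : ∀ N, L 0 N g = y (low N g : E p n) := fun N => by
        simp only [hL, hy.coe_poly, ← MvPolynomial.constantCoeff_eq]
        have h : MvPolynomial.constantCoeff.comp (shiftPoly κ a) = MvPolynomial.eval₂Hom κ a := by
          refine MvPolynomial.ringHom_ext (fun w => ?_) fun i => ?_ <;> simp [shiftPoly]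
        exact RingHom.congr_fun h _
      refine squeeze_zero_norm (fun N => ?_) (tendsto_pow_atTop_nhds_zero_of_lt_one hρ.le hρ1)
      rw [he]
      have h := hy.norm_sub_low hρ.le N g
      rwa [map_sub, (hS g hg).1, zero_sub, norm_neg] at h
    | succ m ih =>
      intro d hd g hg
      obtain ⟨i, hi⟩ : ∃ i, d i ≠ 0 := by
        by_contra hc
        push Not at hc
        rw [show d = 0 from Finsupp.ext hc] at hd
        simp at hd
      set d' := d - Finsupp.single i 1 with hd'
      have hdd : d' + Finsupp.single i 1 = d := by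
        rw [hd', tsub_add_cancel_of_le]
        exact Finsupp.single_le_iff.mpr (Nat.one_le_iff_ne_zero.mpr hi)
      have hdeg : d'.degree = m := by
        rw [← hdd, map_add, Finsupp.degree_single] at hd
        omega
      have hrel : ∀ N, L d' N (dd i g) = L d (N + 1) g * ((d' i + 1 : ℕ) : ℂ_[p]) := fun N => by
        simp only [hL]
        rw [← pderiv_low, ← pderiv_shiftPoly, ← MvPolynomial.coeff_coe,
          ← MvPowerSeries.pderiv_coe, MvPowerSeries.coeff_pderiv, MvPolynomial.coeff_coe, hdd]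
        push_cast
        ring
      refine (tendsto_add_atTop_iff_nat 1).mp ?_
      have h := (ih d' hdeg (dd i g) ((hS g hg).2 i)).div_const ((d' i + 1 : ℕ) : ℂ_[p])
      simp only [hrel, zero_div] at h
      refine h.congr fun N => ?_
      exact mul_div_cancel_right₀ _ (Nat.cast_ne_zero.mpr (Nat.succ_ne_zero (d' i)))
  have hgb : ∀ N, GB (RingHom.id ℂ_[p]) ρ
      ((shiftPoly κ a (low N f) : MvPolynomial (Fin (n - 1)) ℂ_[p]) :
        MvPowerSeries (Fin (n - 1)) ℂ_[p]) (ρ ^ N) := by
    intro N d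
    rw [MvPolynomial.coeff_coe, RingHom.id_apply]
    have htail : ∀ M, N ≤ M → ‖L d M f - L d N f‖ * ρ ^ d.degree ≤ ρ ^ N := by
      intro M hM
      have h := gb_eval₂_shift κ hρ.le hy.small (low M f - low N f) (c := ρ ^ N) ?_ d
      · rw [MvPolynomial.coeff_coe, RingHom.id_apply] at h
        simpa only [hL, shiftPoly, MvPolynomial.coe_eval₂Hom, MvPolynomial.eval₂_sub,
          MvPolynomial.coeff_sub] using h
      · intro e
        rw [MvPolynomial.coeff_coe, MvPolynomial.coeff_sub, coeff_low, coeff_low]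
        by_cases h1 : e.degree < N
        · rw [if_pos h1, if_pos (lt_of_lt_of_le h1 hM), sub_self, map_zero, norm_zero, zero_mul]
          positivity
        · rw [if_neg h1, sub_zero]
          exact (mul_le_of_le_one_left (by positivity) (hκ _)).trans
            (pow_le_pow_of_le_one hρ.le hρ1.le (not_lt.mp h1))
    have hl : Tendsto (fun M => ‖L d M f - L d N f‖ * ρ ^ d.degree) atTop
        (𝓝 (‖0 - L d N f‖ * ρ ^ d.degree)) :=
      (((hlim _ d rfl f hf).sub_const _).norm).mul_const _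
    have := le_of_tendsto hl (eventually_atTop.mpr ⟨N, htail⟩)
    rwa [zero_sub, norm_neg] at this
  refine MvPowerSeries.ext fun e => hinj ?_
  rw [map_zero (MvPowerSeries.coeff e), map_zero κ, ← norm_le_zero_iff]
  refine le_of_forall_pos_le_add fun ε hε => ?_
  obtain ⟨N, hN⟩ := exists_pow_lt_of_lt_one (mul_pos hε (pow_pos hρ e.degree)) hρ1
  set M := max N (e.degree + 1) with hM
  have h := gb_eval₂_shift (RingHom.id ℂ_[p]) hρ.le (b := fun i => -a i)
    (fun i => by rw [norm_neg]; exact hy.small i) _ (hgb M) e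
  have hback : MvPolynomial.eval₂ (MvPolynomial.C.comp (RingHom.id ℂ_[p]))
      (fun i => MvPolynomial.X i + MvPolynomial.C (-a i)) (shiftPoly κ a (low M f)) =
      MvPolynomial.map κ (low M f) := by
    have hh : (MvPolynomial.eval₂Hom (MvPolynomial.C.comp (RingHom.id ℂ_[p]))
        (fun i => MvPolynomial.X i + MvPolynomial.C (-a i))).comp (shiftPoly κ a) =
        MvPolynomial.map κ := by
      refine MvPolynomial.ringHom_ext (fun w => ?_) fun i => ?_ <;> simp [shiftPoly]
    exact RingHom.congr_fun hh _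
  rw [hback, MvPolynomial.coeff_coe, RingHom.id_apply, MvPolynomial.coeff_map, coeff_low,
    if_pos (by omega)] at h
  have hρe : 0 < ρ ^ e.degree := pow_pos hρ _
  have h2 : ‖κ (MvPowerSeries.coeff e f)‖ * ρ ^ e.degree ≤ ε * ρ ^ e.degree :=
    h.trans ((pow_le_pow_of_le_one hρ.le hρ1.le (le_max_left _ _)).trans hN.le)
  rw [zero_add]
  exact le_of_mul_le_mul_right h2 hρe

end

end Vale.Agent.P217.CharZero
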