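import Vale.Agent.P217.Series
import Vale.Agent.P217.CharZero.Taylor

/-!
P217, h = 0: the action as a group, and a uniform power acting trivially to first order.
-/

namespace Vale.Agent.P217.CharZero

noncomputable section

open Filter Topology

section Series

variable {R : Type*} [CommRing R]

lemma subst_X_left (f : PowerSeries R) (hf : PowerSeries.constantCoeff f = 0) :
    PowerSeries.subst f (PowerSeries.X : PowerSeries R) = f :=
  PowerSeries.subst_X (PowerSeries.HasSubst.of_constantCoeff_zero' hf)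

lemma subst_pair_X (G : FormalGroup R) :
    (G : MvPowerSeries (Fin 2) R).subst
      (![MvPowerSeries.X 0, MvPowerSeries.X 1] : Fin 2 → MvPowerSeries (Fin 2) R) =
        (G : MvPowerSeries (Fin 2) R) := by
  have : (![MvPowerSeries.X 0, MvPowerSeries.X 1] : Fin 2 → MvPowerSeries (Fin 2) R) =
      MvPowerSeries.X := by
    ext i : 1; fin_cases i <;> rfl
  rw [this, MvPowerSeries.subst_self]; rfl

lemma isIso_X (G : FormalGroup R) : Vale.Agent.P217.IsIso G G PowerSeries.X := by
  refine ⟨⟨PowerSeries.constantCoeff_X, ?_⟩, by simp⟩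
  rw [PowerSeries.subst_X (PowerSeries.HasSubst.of_constantCoeff_zero G.zero_constantCoeff),
    PowerSeries.subst_X (PowerSeries.HasSubst.X _), PowerSeries.subst_X (PowerSeries.HasSubst.X _),
    subst_pair_X]

lemma map_subst_series {S : Type*} [CommRing S] (e : R →+* S) {a : PowerSeries R}
    (ha : PowerSeries.HasSubst a) (f : PowerSeries R) :
    PowerSeries.map e (PowerSeries.subst a f) =
      PowerSeries.subst (PowerSeries.map e a) (PowerSeries.map e f) :=
  PowerSeries.map_subst ha f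

lemma coeff_one_subst (f g : PowerSeries R) (hg : PowerSeries.constantCoeff g = 0) :
    PowerSeries.coeff 1 (PowerSeries.subst g f) = PowerSeries.coeff 1 f * PowerSeries.coeff 1 g := by
  rw [PowerSeries.coeff_subst' (PowerSeries.HasSubst.of_constantCoeff_zero' hg),
    finsum_eq_single _ 1]
  · simp
  · intro d hd
    rcases Nat.lt_or_gt_of_ne hd with h | h
    · obtain rfl : d = 0 := by omega
      simp
    · refine smul_eq_zero_of_right _ (PowerSeries.coeff_of_lt_order _ ?_)
      refine lt_of_lt_of_le ?_ (PowerSeries.le_order_pow g d)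
      have h1 : (1 : ℕ∞) ≤ g.order := PowerSeries.le_order _ _ fun i hi => by
        obtain rfl : i = 0 := by
          have : i < 1 := by exact_mod_cast hi
          omega
        simpa using hg
      refine lt_of_lt_of_le (b := (d : ℕ∞)) (by exact_mod_cast h) ?_
      simpa using nsmul_le_nsmul_right h1 d

lemma isIso_comp {G G' G'' : FormalGroup R} {a b : PowerSeries R}
    (ha : Vale.Agent.P217.IsIso G G' a) (hb : Vale.Agent.P217.IsIso G' G'' b) :
    Vale.Agent.P217.IsIso G G'' (PowerSeries.subst a b) := by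
  refine ⟨ha.1.comp hb.1, ?_⟩
  rw [coeff_one_subst _ _ ha.1.1]
  exact hb.2.mul ha.2

lemma isIso_substInv {G : FormalGroup R} {g : PowerSeries R}
    (hg : Vale.Agent.P217.IsIso G G g) :
    ∃ g', Vale.Agent.P217.IsIso G G g' ∧ PowerSeries.subst g' g = PowerSeries.X := by
  set h := PowerSeries.substInvOfIsUnit g hg.2 with hh
  have h0 : PowerSeries.constantCoeff h = 0 := PowerSeries.constantCoeff_substInvOfIsUnit g hg.2
  have hsub : PowerSeries.HasSubst h := PowerSeries.HasSubst.of_constantCoeff_zero' h0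
  have hr : PowerSeries.subst h g = PowerSeries.X :=
    PowerSeries.subst_substInvOfIsUnit_right g hg.1.1 hg.2
  have hl : PowerSeries.subst g h = PowerSeries.X :=
    PowerSeries.subst_substInvOfIsUnit_left g hg.1.1 hg.2
  have inj : ∀ S : MvPowerSeries (Fin 2) R, MvPowerSeries.constantCoeff S = 0 →
      PowerSeries.subst (PowerSeries.subst S g) h = S := by
    intro S hS
    have hS' := PowerSeries.HasSubst.of_constantCoeff_zero hS
    rw [← PowerSeries.subst_comp_subst_apply hg.1.hasSubst hS', hl, PowerSeries.subst_X hS']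
  refine ⟨h, ⟨⟨h0, ?_⟩, ?_⟩, hr⟩
  · have hX : ∀ i : Fin 2, MvPowerSeries.constantCoeff
        (PowerSeries.subst (MvPowerSeries.X i : MvPowerSeries (Fin 2) R) h) = 0 := fun i =>
      PowerSeries.constantCoeff_subst_eq_zero (by simp) h h0
    have e : ∀ i : Fin 2, PowerSeries.subst
        (PowerSeries.subst (MvPowerSeries.X i : MvPowerSeries (Fin 2) R) h) g =
          MvPowerSeries.X i := fun i => by
      rw [← PowerSeries.subst_comp_subst_apply hsub (PowerSeries.HasSubst.X i), hr,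
        PowerSeries.subst_X (PowerSeries.HasSubst.X i)]
    have h1 := inj _ (constantCoeff_subst_pair G (hX 0) (hX 1))
    rw [hg.1.apply (hX 0) (hX 1), e 0, e 1, subst_pair_X] at h1
    exact h1
  · rw [hh, PowerSeries.coeff_one_substInvOfIsUnit g hg.2]
    exact Units.isUnit _

end Series

variable {p n : ℕ} [Fact p.Prime] {F : FormalGroup (E p n)}

lemma res_u (i : Fin (n - 1)) : res p n (u p n i) = 0 := by simp [res, u]

lemma mem_span_X (e : E p n) (he : MvPowerSeries.constantCoeff e = 0) :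
    ∃ q : Fin (n - 1) → E p n, e = ∑ i, q i * u p n i := by
  have h := mem_span_X_pow 1 e fun d hd => by
    rw [show d = 0 from (Finsupp.degree_eq_zero_iff d).mp (by omega)]
    simpa using he
  rw [pow_one, Ideal.mem_span_range_iff_exists_fun] at h
  obtain ⟨q, hq⟩ := h
  exact ⟨q, hq.symm⟩

lemma decomp (e : E p n) : ∃ q : Fin (n - 1) → E p n,
    e = MvPowerSeries.C (MvPowerSeries.constantCoeff e) + ∑ i, q i * u p n i := by
  obtain ⟨q, hq⟩ := mem_span_X (e - MvPowerSeries.C (MvPowerSeries.constantCoeff e)) (by simp)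
  exact ⟨q, by rw [← hq]; ring⟩

lemma res_apply_algHom {φ : E p n →ₐ[W p n] E p n} (hφ : ∀ i, res p n (φ (u p n i)) = 0)
    (e : E p n) : res p n (φ e) = res p n e := by
  obtain ⟨q, hq⟩ := decomp e
  rw [hq, map_add, map_sum, algHom_C, map_add, map_add, map_sum, map_sum]
  congr 1
  refine Finset.sum_congr rfl fun i _ => ?_
  rw [map_mul, map_mul, map_mul, hφ i]
  simp [res, u]

lemma res_comp_algHom {φ : E p n →ₐ[W p n] E p n} (hφ : ∀ i, res p n (φ (u p n i)) = 0) :
    (res p n).comp (φ : E p n →+* E p n) = res p n :=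
  RingHom.ext fun e => res_apply_algHom hφ e

lemma map_res_algHom {φ : E p n →ₐ[W p n] E p n} (hφ : ∀ i, res p n (φ (u p n i)) = 0)
    (ψ : PowerSeries (E p n)) :
    PowerSeries.map (res p n) (PowerSeries.map (φ : E p n →+* E p n) ψ) =
      PowerSeries.map (res p n) ψ := by
  ext i
  simp [PowerSeries.coeff_map, res_apply_algHom hφ]

lemma actsBy_one (F : FormalGroup (E p n)) : ActsBy p n F PowerSeries.X 1 := by
  refine ⟨isIso_X _, fun i => by simp [res, u], PowerSeries.X, ?_, PowerSeries.map_X _⟩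
  have h : F.map ((1 : E p n →ₐ[W p n] E p n) : E p n →+* E p n) = F := by
    ext d; simp
  rw [h]
  exact isIso_X F

/-- The action is compatible with composition. -/
theorem actsBy_mul {g g' : PowerSeries (K p n)} {φ φ' : E p n →ₐ[W p n] E p n}
    (h : ActsBy p n F g φ) (h' : ActsBy p n F g' φ') :
    ActsBy p n F (PowerSeries.subst g g') (φ * φ') := by
  obtain ⟨hg, hφ, ψ, hψ, hψg⟩ := h
  obtain ⟨hg', hφ', ψ', hψ', hψg'⟩ := h'
  refine ⟨isIso_comp hg hg', fun i => ?_, PowerSeries.subst ψ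
    (PowerSeries.map (φ : E p n →+* E p n) ψ'), ?_, ?_⟩
  · rw [AlgHom.mul_apply, res_apply_algHom hφ, hφ']
  · have e : (F.map (φ' : E p n →+* E p n)).map (φ : E p n →+* E p n) =
        F.map ((φ * φ' : E p n →ₐ[W p n] E p n) : E p n →+* E p n) := by
      ext d
      simp
    rw [← e]
    exact isIso_comp hψ (hψ'.map _)
  · rw [map_subst_series (res p n) hψ.1.hasSubst, map_res_algHom hφ, hψg', hψg]

lemma actsBy_inv (hA : ∀ g, IsAut p n F g → ∃! φ, ActsBy p n F g φ) {g : PowerSeries (K p n)}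
    {φ : E p n →ₐ[W p n] E p n} (h : ActsBy p n F g φ) :
    ∃ g' φ', ActsBy p n F g' φ' ∧ φ' * φ = 1 := by
  obtain ⟨g', hg', hgg⟩ := isIso_substInv h.1
  obtain ⟨φ', hφ', -⟩ := hA g' hg'
  refine ⟨g', φ', hφ', ?_⟩
  have h2 := actsBy_mul hφ' h
  rw [hgg] at h2
  exact (hA _ (isIso_X _)).unique h2 (actsBy_one F)

lemma actsBy_pow {g : PowerSeries (K p n)} {φ : E p n →ₐ[W p n] E p n}
    (h : ActsBy p n F g φ) : ∀ m : ℕ, ∃ g', ActsBy p n F g' (φ ^ m)
  | 0 => ⟨PowerSeries.X, by rw [pow_zero]; exact actsBy_one F⟩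
  | m + 1 => by
    obtain ⟨g', hg'⟩ := actsBy_pow h m
    exact ⟨_, by rw [pow_succ]; exact actsBy_mul hg' h⟩

/-- The linear part at the closed point. -/
def lin (φ : E p n →ₐ[W p n] E p n) : Matrix (Fin (n - 1)) (Fin (n - 1)) (K p n) :=
  Matrix.of fun i j => res p n (dd j (φ (u p n i)))

lemma dd_mul (j : Fin (n - 1)) (a b : E p n) : dd j (a * b) = a * dd j b + b * dd j a :=
  (MvPowerSeries.pderiv (W p n) j).leibniz a b

lemma dd_u (i j : Fin (n - 1)) : dd j (u p n i) = if i = j then 1 else 0 := by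
  classical
  rw [dd, u, MvPowerSeries.pderiv_X]
  simp [Pi.single_apply]

lemma dd_C (j : Fin (n - 1)) (w : W p n) : dd j (MvPowerSeries.C w) = 0 :=
  MvPowerSeries.pderiv_C

lemma res_dd_apply {φ : E p n →ₐ[W p n] E p n} (hφ : ∀ i, res p n (φ (u p n i)) = 0) (e : E p n)
    (j : Fin (n - 1)) : res p n (dd j (φ e)) = ∑ i, res p n (dd i e) * lin φ i j := by
  classical
  obtain ⟨q, hq⟩ := decomp e
  have hi : ∀ i, res p n (dd i e) = res p n (q i) := fun i => by
    conv_lhs => rw [hq]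
    rw [show dd i (MvPowerSeries.C (MvPowerSeries.constantCoeff e) + ∑ l, q l * u p n l) =
      ∑ l, dd i (q l * u p n l) by
        simp [dd, MvPowerSeries.pderiv_C, map_add, map_sum], map_sum]
    rw [Finset.sum_eq_single i]
    · simp [dd_mul, dd_u, res_u]
    · intro l _ hl
      simp [dd_mul, dd_u, hl, res_u]
    · simp
  conv_lhs => rw [hq]
  rw [map_add, map_sum, algHom_C, show dd j (MvPowerSeries.C (MvPowerSeries.constantCoeff e) +
      ∑ l, φ (q l * u p n l)) = ∑ l, dd j (φ (q l * u p n l)) by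
        simp [dd, MvPowerSeries.pderiv_C, map_add, map_sum], map_sum]
  refine Finset.sum_congr rfl fun l _ => ?_
  rw [map_mul φ, dd_mul, map_add, map_mul, map_mul, res_apply_algHom hφ, hφ, zero_mul, add_zero,
    hi]
  rfl

lemma lin_mul {φ φ' : E p n →ₐ[W p n] E p n} (hφ : ∀ i, res p n (φ (u p n i)) = 0) :
    lin (φ * φ') = lin φ' * lin φ := by
  ext i j
  rw [Matrix.mul_apply]
  exact res_dd_apply hφ (φ' (u p n i)) j

lemma lin_one : lin (1 : E p n →ₐ[W p n] E p n) = 1 := by
  ext i j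
  rw [lin, Matrix.of_apply, AlgHom.one_apply, dd_u, Matrix.one_apply, apply_ite (res p n),
    map_one, map_zero]

lemma lin_pow {g : PowerSeries (K p n)} {φ : E p n →ₐ[W p n] E p n} (h : ActsBy p n F g φ) :
    ∀ m : ℕ, lin (φ ^ m) = lin φ ^ m
  | 0 => by rw [pow_zero, pow_zero, lin_one]
  | m + 1 => by rw [pow_succ', lin_mul h.2.1, lin_pow h m, pow_succ]

/-- A uniform power of every action has trivial linear part. -/
theorem exists_order (hA : ∀ g, IsAut p n F g → ∃! φ, ActsBy p n F g φ) :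
    ∃ B : ℕ, B ≠ 0 ∧ ∀ g φ, ActsBy p n F g φ → lin (φ ^ B) = 1 := by
  refine ⟨Nat.card (Matrix (Fin (n - 1)) (Fin (n - 1)) (K p n))ˣ, Nat.card_pos.ne', ?_⟩
  intro g φ h
  obtain ⟨g', φ', h', he⟩ := actsBy_inv hA h
  have h1 : lin φ * lin φ' = 1 := by rw [← lin_mul h'.2.1, he, lin_one]
  let U : (Matrix (Fin (n - 1)) (Fin (n - 1)) (K p n))ˣ :=
    ⟨lin φ, lin φ', h1, mul_eq_one_comm.mp h1⟩
  rw [lin_pow h]
  have := congrArg Units.val (pow_card_eq_one' (x := U))
  rwa [Units.val_pow_eq_pow_val, Units.val_one] at this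

variable {κ : W p n →+* ℂ_[p]} {ρ : ℝ}

lemma norm_κ_of_res (hκ : ∀ w, ‖κ w‖ ≤ 1) {w : W p n} (h : WittVector.constantCoeff w = 0) :
    ‖κ w‖ ≤ (p : ℝ)⁻¹ := by
  have h' : w ∈ RingHom.ker (WittVector.constantCoeff : W p n →+* K p n) := h
  rw [WittVector.ker_constantCoeff, Ideal.mem_span_singleton] at h'
  obtain ⟨v, rfl⟩ := h'
  rw [map_mul, map_natCast, norm_mul, norm_natCast_p]
  exact mul_le_of_le_one_right inv_p_pos.le (hκ v)

lemma gb_of_res (hκ : ∀ w, ‖κ w‖ ≤ 1) (hρ : (p : ℝ)⁻¹ < ρ) (hρ1 : ρ < 1) {e : E p n}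
    (he : res p n e = 0) : GB κ ρ e ρ := by
  intro d
  have hρ0 : 0 < ρ := inv_p_pos.trans hρ
  rcases Nat.eq_zero_or_pos d.degree with hd | hd
  · rw [hd, pow_zero, mul_one, (Finsupp.degree_eq_zero_iff d).mp hd,
      MvPowerSeries.coeff_zero_eq_constantCoeff_apply]
    exact (norm_κ_of_res hκ he).trans hρ.le
  · exact (mul_le_of_le_one_left (by positivity) (hκ _)).trans
      (pow_le_of_le_one hρ0.le hρ1.le hd.ne')

/-- An action with trivial linear part is near the identity. -/
theorem near_of_lin (hκ : ∀ w, ‖κ w‖ ≤ 1) (hρ : (p : ℝ)⁻¹ < ρ) (hρ1 : ρ < 1)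
    {φ : E p n →ₐ[W p n] E p n} (hφ : ∀ i, res p n (φ (u p n i)) = 0) (hlin : lin φ = 1) :
    Near κ ρ (max ρ ((p : ℝ)⁻¹ / ρ)) φ := by
  classical
  have hρ0 : 0 < ρ := inv_p_pos.trans hρ
  refine near_of_gens hκ hρ0.le hρ1 (hρ0.le.trans (le_max_left _ _))
    (fun i => gb_of_res hκ hρ hρ1 (hφ i)) fun i d => ?_
  rcases Nat.lt_or_ge d.degree 2 with hd | hd
  · rcases Nat.eq_zero_or_pos d.degree with h0 | h0
    · rw [h0, pow_zero, mul_one, (Finsupp.degree_eq_zero_iff d).mp h0,
        MvPowerSeries.coeff_zero_eq_constantCoeff_apply]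
      have h1 : WittVector.constantCoeff (MvPowerSeries.constantCoeff (φ (u p n i) - u p n i)) = 0 :=
        show res p n (φ (u p n i) - u p n i) = 0 by rw [map_sub, hφ]; simp [res, u]
      refine (norm_κ_of_res hκ h1).trans ?_
      calc (p : ℝ)⁻¹ = (p : ℝ)⁻¹ / ρ * ρ := by field_simp
        _ ≤ _ := mul_le_mul_of_nonneg_right (le_max_right _ _) hρ0.le
    · obtain ⟨j, rfl⟩ : ∃ j, d = Finsupp.single j 1 := by
        have h1 : d.degree = 1 := by omega
        obtain ⟨j, hj⟩ : ∃ j, d j ≠ 0 := by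
          by_contra hc
          push Not at hc
          rw [show d = 0 from Finsupp.ext hc] at h1
          simp at h1
        refine ⟨j, ?_⟩
        have hle : Finsupp.single j 1 ≤ d :=
          Finsupp.single_le_iff.mpr (Nat.one_le_iff_ne_zero.mpr hj)
        obtain ⟨r, hr⟩ := exists_add_of_le hle
        rw [hr, map_add, Finsupp.degree_single] at h1
        rw [hr, (Finsupp.degree_eq_zero_iff r).mp (by omega), add_zero]
      rw [Finsupp.degree_single, pow_one]
      refine mul_le_mul_of_nonneg_right ?_ hρ0.le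
      refine ((norm_κ_of_res hκ ?_).trans hρ.le).trans (le_max_left _ _)
      have h1 : res p n (dd j (φ (u p n i) - u p n i)) = 0 := by
        have h2 : lin φ i j = (1 : Matrix (Fin (n - 1)) (Fin (n - 1)) (K p n)) i j := by rw [hlin]
        rw [dd, map_sub, map_sub]
        change lin φ i j - res p n (dd j (u p n i)) = 0
        rw [h2, dd_u, Matrix.one_apply, apply_ite (res p n), map_one, map_zero, sub_self]
      rw [res, RingHom.comp_apply, dd, ← MvPowerSeries.coeff_zero_eq_constantCoeff_apply,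
        MvPowerSeries.coeff_pderiv, zero_add, Finsupp.coe_zero, Pi.zero_apply, Nat.cast_zero,
        zero_add, mul_one] at h1
      exact h1
  · refine (mul_le_of_le_one_left (by positivity) (hκ _)).trans ?_
    calc ρ ^ d.degree ≤ ρ ^ 2 := pow_le_pow_of_le_one hρ0.le hρ1.le hd
      _ = ρ * ρ := sq ρ
      _ ≤ _ := mul_le_mul_of_nonneg_right (le_max_left _ _) hρ0.le

lemma near_theta_lt_one (hρ : (p : ℝ)⁻¹ < ρ) (hρ1 : ρ < 1) :
    max ρ ((p : ℝ)⁻¹ / ρ) < 1 :=
  max_lt hρ1 ((div_lt_one (inv_p_pos.trans hρ)).mpr hρ)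

lemma onBall_comp (hκ : ∀ w, ‖κ w‖ ≤ 1) (hρ : (p : ℝ)⁻¹ < ρ) (hρ1 : ρ < 1)
    {y : E p n →+* ℂ_[p]} (hy : OnBall κ ρ y) {φ : E p n →ₐ[W p n] E p n}
    (hφ : ∀ i, res p n (φ (u p n i)) = 0) : OnBall κ ρ (y.comp (φ : E p n →+* E p n)) where
  coeff_map w := by simp [algHom_C, hy.coeff_map]
  integral e := hy.integral _
  small i := hy.norm_le (inv_p_pos.trans hρ).le hρ1 (gb_of_res hκ hρ hρ1 (hφ i))

end

end Vale.Agent.P217.CharZero
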